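import Vale.Agent.P021.Arith.SavedPrimes
import Vale.Agent.P021.Arith.Two

/-!
The integral `I n`, times `den n`, is an integer linear form in `1` and `π`.
-/

namespace Vale.Agent.P021

open Arith Filter

noncomputable section

lemma savedProd_prime_dvd {n p : ℕ} (hp : p.Prime) (h : p ∣ savedProd n) : Saved n p := by
  classical
  obtain ⟨q, hq, hpq⟩ := hp.prime.exists_mem_finset_dvd h
  have hS := (Finset.mem_filter.1 hq).2
  rwa [(Nat.prime_dvd_prime_iff_eq hp hS.1).1 hpq]

lemma savedProd_split {n p : ℕ} (hS : Saved n p) :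
    ∃ c : ℕ, savedProd n = p * c ∧ ¬ p ∣ c := by
  classical
  have hp : p.Prime := hS.1
  have hmem : p ∈ (Finset.range (8002 * n + 1)).filter (Saved n) :=
    Finset.mem_filter.2 ⟨Finset.mem_range.2 (Nat.lt_succ_of_le hS.2.2.2.1), hS⟩
  refine ⟨∏ q ∈ ((Finset.range (8002 * n + 1)).filter (Saved n)).erase p, q,
    (Finset.mul_prod_erase _ (fun q => q) hmem).symm, fun h => ?_⟩
  obtain ⟨q, hq, hpq⟩ := hp.prime.exists_mem_finset_dvd h
  obtain ⟨hne, hq'⟩ := Finset.mem_erase.1 hq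
  exact hne ((Nat.prime_dvd_prime_iff_eq hp (Finset.mem_filter.1 hq').2.1).1 hpq).symm

lemma savedProd_pos (n : ℕ) : 0 < savedProd n := by
  classical
  exact Finset.prod_pos fun q hq => (Finset.mem_filter.1 hq).2.1.pos

/-- the two coefficients of the linear form are integral at every prime -/
lemma coeff_mem {n : ℕ} (hn : 1 ≤ n) (D : RData n) {b : ℚ} (hb : bPart D.γ = (b : ℂ))
    (p : ℕ) [Fact p.Prime] : den n * b ∈ pSub p ∧ den n * alpha n / 2 ∈ pSub p := by
  have hp : p.Prime := Fact.out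
  have hS0 : (savedProd n : ℚ) ≠ 0 := by exact_mod_cast (savedProd_pos n).ne'
  set L : ℚ := (Nat.lcmUpto (8002 * n) : ℚ) with hL
  have hLm : L ∈ pSub p := natCast_mem _ _
  have hden : den n = L / ((savedProd n : ℚ) * 2 ^ twoExp n) := rfl
  by_cases hp2 : p = 2
  · subst hp2
    have hS : (savedProd n : ℚ)⁻¹ ∈ pSub 2 := by
      refine inv_nat_mem fun h => ?_
      have := (savedProd_prime_dvd hp h).2.2.1
      omega
    constructor
    · rw [show den n * b = L * (savedProd n : ℚ)⁻¹ * (b / 2 ^ twoExp n) by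
        rw [hden]; field_simp]
      exact mul_mem (mul_mem hLm hS) (bPart_two hn D hb)
    · rw [show den n * alpha n / 2 = L * (savedProd n : ℚ)⁻¹ * (alpha n / 2 ^ (twoExp n + 1)) by
        rw [hden, pow_succ]; field_simp]
      exact mul_mem (mul_mem hLm hS) (alpha_two hn)
  have h2 : ¬ p ∣ 2 := fun h => hp2 ((Nat.prime_dvd_prime_iff_eq hp Nat.prime_two).1 h)
  have hi2 : ((2 : ℚ))⁻¹ ∈ pSub p := by simpa using inv_nat_mem (p := p) h2
  by_cases hS : Saved n p
  · obtain ⟨c, hc, hpc⟩ := savedProd_split hS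
    obtain ⟨⟨q, hq, hbq⟩, ha⟩ := saved_mem hn hS D
    obtain rfl : b = q := by exact_mod_cast hb.symm.trans hbq
    obtain ⟨l, hl⟩ : p ∣ Nat.lcmUpto (8002 * n) :=
      Finset.dvd_lcm (f := id) (Finset.mem_Icc.2 ⟨hp.one_le, hS.2.2.2.1⟩)
    have hp0 : (p : ℚ) ≠ 0 := by exact_mod_cast hp.ne_zero
    have hc0 : (c : ℚ) ≠ 0 := by
      intro h
      rw [Nat.cast_eq_zero.1 h] at hpc
      exact hpc (dvd_zero p)
    have hd : den n = (l : ℚ) * (c : ℚ)⁻¹ * ((2 : ℚ)⁻¹) ^ twoExp n := by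
      rw [hden, hL, hl, hc]
      push_cast
      rw [inv_pow]
      field_simp
    have hdm : den n ∈ pSub p := by
      rw [hd]
      exact mul_mem (mul_mem (natCast_mem _ l) (inv_nat_mem hpc)) (pow_mem hi2 _)
    refine ⟨mul_mem hdm hq, ?_⟩
    rw [div_eq_mul_inv]
    exact mul_mem (mul_mem hdm ha) hi2
  · have hSi : (savedProd n : ℚ)⁻¹ ∈ pSub p :=
      inv_nat_mem fun h => hS (savedProd_prime_dvd hp h)
    obtain ⟨⟨q, hq, hbq⟩, ha⟩ :
        (∃ q ∈ pSub p, (Nat.lcmUpto (8002 * n) : ℂ) * bPart D.γ = (q : ℂ)) ∧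
          alpha n ∈ pSub p := by
      by_cases hp5 : p = 5
      · subst hp5
        exact ⟨lcm_bPart_five hn D, gamma_neg_one D ▸ (gamma_five hn D (-1)).1⟩
      · have h10 : ¬ p ∣ 10 := by
          intro h
          rcases hp.dvd_mul.1 (show p ∣ 2 * 5 by simpa using h) with h' | h'
          · exact h2 h'
          · exact hp5 ((Nat.prime_dvd_prime_iff_eq hp (by norm_num)).1 h')
        exact ⟨lcm_bPart_mem h10 D, gamma_neg_one D ▸ gamma_mem h10 D (-1)⟩
    have hqb : q = L * b := by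
      rw [hb] at hbq
      rw [hL]
      exact_mod_cast hbq.symm
    constructor
    · rw [show den n * b = q * (savedProd n : ℚ)⁻¹ * ((2 : ℚ)⁻¹) ^ twoExp n by
        rw [hden, hqb, inv_pow]; field_simp]
      exact mul_mem (mul_mem hq hSi) (pow_mem hi2 _)
    · rw [show den n * alpha n / 2 = L * alpha n * (savedProd n : ℚ)⁻¹ *
          ((2 : ℚ)⁻¹) ^ twoExp n * (2 : ℚ)⁻¹ by rw [hden, inv_pow]; field_simp]
      exact mul_mem (mul_mem (mul_mem (mul_mem hLm ha) hSi) (pow_mem hi2 _)) hi2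

/-- interface of module Arith -/
theorem arith : ArithStmt := by
  refine Filter.eventually_atTop.2 ⟨1, fun n hn => ?_⟩
  obtain ⟨D⟩ := exists_rData n
  obtain ⟨b, hb⟩ := isRatC_bPart D.γ
  have hI : I n = (b : ℝ) - (alpha n : ℝ) * (Real.pi / 2) := by
    rw [I_eq, J_evalPhi D.eval, hb, gamma_neg_one D]
    simp
  obtain ⟨p₀, hp₀⟩ := int_of_pSub (q := den n * b) fun p hp => by
    have := Fact.mk hp
    exact (coeff_mem hn D hb p).1
  obtain ⟨q₀, hq₀⟩ := int_of_pSub (q := den n * alpha n / 2) fun p hp => by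
    have := Fact.mk hp
    exact (coeff_mem hn D hb p).2
  refine ⟨-p₀, -q₀, ?_, ?_⟩
  · have h1 : (den n : ℝ) * b = (p₀ : ℝ) := by exact_mod_cast hp₀
    have h2 : (den n : ℝ) * alpha n / 2 = (q₀ : ℝ) := by
      have := congrArg (fun x : ℚ => (x : ℝ)) hq₀
      push_cast at this
      exact this
    rw [hI]
    push_cast
    linear_combination h1 - Real.pi * h2
  · push_cast
    linear_combination hq₀

end

end Vale.Agent.P021
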