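import Vale.Agent.P021.Defs

/-!
From the lower bound for `|π - p/q|` to the bound for the set defining the irrationality exponent.
-/

namespace Vale.Agent.P021

open Filter

/-- the exponents admitting infinitely many reduced approximations are at most `7.1022` -/
theorem exponent_set_le (h : ExponentStmt) (ν : ℝ)
    (hν : {x : ℤ × ℕ | 2 ≤ x.2 ∧ Int.gcd x.1 x.2 = 1 ∧ 0 < |Real.pi - (x.1 : ℝ) / x.2| ∧
      |Real.pi - (x.1 : ℝ) / x.2| < ((x.2 : ℝ) ^ ν)⁻¹}.Infinite) : ν ≤ 7.1022 := by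
  by_contra hcon
  have hlt : (7.1022 : ℝ) ≤ ν := (not_le.1 hcon).le
  obtain ⟨N, hN⟩ := eventually_atTop.1 h
  refine hν ((((Set.finite_Icc (-5 * (N : ℤ)) (5 * (N : ℤ))).prod (Set.finite_Iio N))).subset ?_)
  intro x hx
  obtain ⟨p, q⟩ := x
  obtain ⟨hq2, -, -, hlt'⟩ := hx
  have hq1 : (1 : ℝ) ≤ (q : ℝ) := by exact_mod_cast le_trans (by norm_num : 1 ≤ 2) hq2
  have hqN : q < N := by
    by_contra hge
    have h1 := hN q (not_lt.1 hge) p
    have h2 : ((q : ℝ) ^ ν)⁻¹ ≤ ((q : ℝ) ^ (7.1022 : ℝ))⁻¹ :=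
      inv_anti₀ (Real.rpow_pos_of_pos (by linarith) _) (Real.rpow_le_rpow_of_exponent_le hq1 hlt)
    dsimp only at hlt'
    linarith
  refine Set.mem_prod.2 ⟨?_, hqN⟩
  have hpow : ((q : ℝ) ^ ν)⁻¹ ≤ 1 :=
    inv_le_one_of_one_le₀ (Real.one_le_rpow hq1 (by norm_num at hlt; linarith))
  dsimp only at hlt'
  have hb : |Real.pi - (p : ℝ) / q| < 1 := hlt'.trans_le hpow
  have hp : |(p : ℝ) / q| ≤ 5 := by
    have := abs_lt.1 hb
    have := Real.pi_pos
    have := Real.pi_lt_four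
    exact abs_le.2 ⟨by linarith, by linarith⟩
  rw [abs_div, Nat.abs_cast, div_le_iff₀ (by linarith)] at hp
  have hp2 : |p| ≤ 5 * (q : ℤ) := by exact_mod_cast hp
  have := abs_le.1 hp2
  exact Set.mem_Icc.2 ⟨by omega, by omega⟩

end Vale.Agent.P021
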