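import Mathlib

/-!
# Hata's criterion for an upper bound of the irrationality exponent

If integers `q n, p n` make the linear forms `q n * x - p n` decay at exponential rate at least
`τ` while `|q n|` grows at exponential rate exactly `σ`, then `|x - P/Q| ≥ Q ^ (-ν)` for all
`ν > 1 + σ/τ`, all large `Q` and every `P`.
-/

open Filter Topology

namespace Vale.Agent.P021

/-- Explicit form of the criterion. -/
theorem approx_lower {x a b t : ℝ} (ht : 0 < t) (q p : ℕ → ℤ)
    (N : ℕ) (hlo : ∀ n ≥ N, Real.exp (a * n) ≤ |(q n : ℝ)|)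
    (hhi : ∀ n ≥ N, |(q n : ℝ)| ≤ Real.exp (b * n))
    (hsmall : ∀ n ≥ N, |(q n : ℝ) * x - p n| ≤ Real.exp (-t * n))
    {Q : ℕ} (hQ : 0 < Q) (hQN : Real.exp (t * N) ≤ 4 * Q) (P : ℤ)
    (hne : ∀ n ≥ N, ∃ m ≥ n, (q m : ℝ) * P ≠ (p m : ℝ) * Q) :
    ∃ m : ℕ, 1 / (2 * (Q : ℝ) * Real.exp (b * m)) ≤ |x - P / Q| ∧
      ((m : ℝ) ≤ Real.log (4 * Q) / t + 1 ∨
        (a + t - b) * ((m : ℝ) - 1) ≤ Real.log (2 * Q) + b) := by
  have hQ' : (0 : ℝ) < Q := by exact_mod_cast hQ
  set n0 := ⌈Real.log (4 * Q) / t⌉₊ with hn0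
  have h4 : (0 : ℝ) < 4 * Q := by positivity
  have hn0l : Real.log (4 * Q) / t ≤ n0 := Nat.le_ceil _
  have hNn : N ≤ n0 := by
    have h : t * N ≤ Real.log (4 * Q) := (Real.le_log_iff_exp_le h4).2 hQN
    have : (N : ℝ) ≤ n0 := le_trans (by rw [le_div_iff₀ ht]; linarith) hn0l
    exact_mod_cast this
  classical
  have hex := hne n0 hNn
  let S : ℕ → Prop := fun m => n0 ≤ m ∧ (q m : ℝ) * P ≠ (p m : ℝ) * Q
  have hS : ∃ m, S m := hex.imp fun m hm => ⟨hm.1, hm.2⟩
  set m := Nat.find hS with hm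
  obtain ⟨hmn, hmne⟩ : S m := Nat.find_spec hS
  have hmN : N ≤ m := hNn.trans hmn
  have hint : (1 : ℝ) ≤ |(q m : ℝ) * P - p m * Q| := by
    have h : q m * P - p m * (Q : ℤ) ≠ 0 := fun h => hmne (by
      have := congrArg (Int.cast : ℤ → ℝ) h; push_cast at this; linarith)
    have := Int.one_le_abs h
    calc (1 : ℝ) ≤ ((|q m * P - p m * (Q : ℤ)| : ℤ) : ℝ) := by exact_mod_cast this
      _ = _ := by push_cast; rfl
  have hsm : |(q m : ℝ) * x - p m| * Q ≤ 1 / 2 := by
    have h1 := hsmall m hmN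
    have h2 : Real.exp (-t * m) ≤ Real.exp (-Real.log (4 * Q)) := by
      refine Real.exp_le_exp.2 ?_
      have : Real.log (4 * Q) / t ≤ m := hn0l.trans (by exact_mod_cast hmn)
      rw [div_le_iff₀ ht] at this; linarith
    rw [Real.exp_neg, Real.exp_log h4] at h2
    calc |(q m : ℝ) * x - p m| * Q ≤ (4 * (Q : ℝ))⁻¹ * Q :=
          mul_le_mul_of_nonneg_right (h1.trans h2) hQ'.le
      _ ≤ 1 / 2 := by rw [mul_inv, mul_assoc, inv_mul_cancel₀ hQ'.ne']; norm_num
  have hlow : 1 / (2 * (Q : ℝ) * Real.exp (b * m)) ≤ |x - P / Q| := by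
    have e : (q m : ℝ) * P - p m * Q =
        ((q m : ℝ) * x - p m) * Q - (q m : ℝ) * Q * (x - P / Q) := by field_simp; ring
    have h1 : (1 : ℝ) ≤ 1 / 2 + |(q m : ℝ)| * Q * |x - P / Q| := by
      refine hint.trans ?_
      rw [e]
      refine (abs_sub _ _).trans ?_
      rw [abs_mul, abs_mul, abs_mul, abs_of_pos hQ']
      linarith
    have h2 : |(q m : ℝ)| * Q * |x - P / Q| ≤ Real.exp (b * m) * Q * |x - P / Q| := by
      gcongr; exact hhi m hmN
    rw [div_le_iff₀ (by positivity)]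
    nlinarith
  refine ⟨m, hlow, ?_⟩
  by_cases hcase : m = n0
  · left
    rw [hcase]
    exact (Nat.ceil_lt_add_one (div_nonneg (Real.log_nonneg (by
      have : (1 : ℝ) ≤ Q := by exact_mod_cast hQ
      linarith)) ht.le)).le
  · right
    obtain ⟨j, hj⟩ : ∃ j, m = j + 1 := ⟨m - 1, by omega⟩
    have hjn : n0 ≤ j := by omega
    have hjN : N ≤ j := hNn.trans hjn
    have hjS : (q j : ℝ) * P = p j * Q := by
      by_contra h
      exact Nat.find_min hS (by omega : j < m) ⟨hjn, h⟩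
    have hqpos : 0 < |(q j : ℝ)| := (Real.exp_pos _).trans_le (hlo j hjN)
    have e : (q j : ℝ) * x - p j = q j * (x - P / Q) := by
      have : (p j : ℝ) = q j * (P / Q) := by rw [← mul_div_assoc, hjS]; field_simp
      rw [this]; ring
    have h1 : Real.exp (a * j) * |x - P / Q| ≤ Real.exp (-t * j) := by
      refine le_trans ?_ (hsmall j hjN)
      rw [e, abs_mul]
      gcongr; exact hlo j hjN
    have h2 : Real.exp (a * j) * (1 / (2 * (Q : ℝ) * Real.exp (b * m))) ≤ Real.exp (-t * j) :=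
      le_trans (by gcongr) h1
    rw [← mul_div_assoc, mul_one, div_le_iff₀ (by positivity)] at h2
    have h3 : Real.exp (a * j) ≤ Real.exp (-t * j + Real.log (2 * Q) + b * m) := by
      rw [Real.exp_add, Real.exp_add, Real.exp_log (by positivity)]
      linarith
    have h4' := Real.exp_le_exp.1 h3
    have hjm : (m : ℝ) = j + 1 := by rw [hj]; push_cast; ring
    rw [hjm] at h4' ⊢
    linarith

/-- Hata's criterion: exponential rates `σ` of `|q n|` and `τ` of decay of `q n * x - p n`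
give irrationality exponent at most `1 + σ/τ`. -/
theorem hata_criterion {x σ τ : ℝ} (hx : Irrational x) (hσ : 0 < σ) (hτ : 0 < τ) (q p : ℕ → ℤ)
    (hq : Tendsto (fun n : ℕ => Real.log |(q n : ℝ)| / n) atTop (𝓝 σ))
    (hr : ∀ δ > 0, ∀ᶠ n : ℕ in atTop, |(q n : ℝ) * x - p n| ≤ Real.exp (-(τ - δ) * n))
    {ν : ℝ} (hν : 1 + σ / τ < ν) :
    ∀ᶠ Q : ℕ in atTop, ∀ P : ℤ, (Q : ℝ) ^ (-ν) ≤ |x - P / Q| := by
  obtain ⟨δ, hδ, hδσ, hδτ, hδν⟩ : ∃ δ : ℝ, 0 < δ ∧ δ < σ ∧ 3 * δ < τ ∧
      1 + (σ + δ) / (τ - 3 * δ) < ν := by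
    have hc : ContinuousAt (fun δ : ℝ => 1 + (σ + δ) / (τ - 3 * δ)) 0 :=
      continuousAt_const.add ((continuousAt_const.add continuousAt_id).div
        (continuousAt_const.sub (continuousAt_const.mul continuousAt_id)) (by simpa using hτ.ne'))
    have h0 : ∀ᶠ δ in 𝓝 (0 : ℝ), δ < σ ∧ 3 * δ < τ ∧ 1 + (σ + δ) / (τ - 3 * δ) < ν := by
      refine (eventually_lt_nhds hσ).and (Eventually.and ?_ (hc.eventually_lt continuousAt_const ?_))
      · have : (0 : ℝ) < τ / 3 := by linarith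
        exact (eventually_lt_nhds this).mono fun δ h => by linarith
      · simpa using hν
    obtain ⟨δ, hδ, h⟩ := ((h0.filter_mono (nhdsWithin_le_nhds (s := Set.Ioi (0 : ℝ)))).and
      eventually_mem_nhdsWithin).exists
    exact ⟨δ, h, hδ.1, hδ.2.1, hδ.2.2⟩
  set a := σ - δ with ha
  set b := σ + δ with hb
  set t := τ - δ with ht
  have ht0 : 0 < t := by linarith
  have hb0 : 0 < b := by linarith
  have hgap : 0 < a + t - b := by linarith
  have hev : ∀ᶠ n : ℕ in atTop, Real.exp (a * n) ≤ |(q n : ℝ)| ∧ |(q n : ℝ)| ≤ Real.exp (b * n) ∧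
      |(q n : ℝ) * x - p n| ≤ Real.exp (-t * n) := by
    filter_upwards [hq.eventually (Ioo_mem_nhds (by linarith : a < σ) (by linarith : σ < b)),
      hr δ hδ, eventually_gt_atTop 0] with n hn hsm hn0
    have hn' : (0 : ℝ) < n := by exact_mod_cast hn0
    obtain ⟨h1, h2⟩ := hn
    rw [lt_div_iff₀ hn'] at h1
    rw [div_lt_iff₀ hn'] at h2
    have hpos : 0 < |(q n : ℝ)| := by
      by_contra hz
      have : |(q n : ℝ)| = 0 := le_antisymm (not_lt.1 hz) (abs_nonneg _)
      rw [this, Real.log_zero] at h1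
      nlinarith
    exact ⟨((Real.le_log_iff_exp_le hpos).1 h1.le), (Real.log_le_iff_le_exp hpos).1 h2.le, hsm⟩
  obtain ⟨N, hN⟩ := eventually_atTop.1 hev
  set K := b / t * Real.log 4 + b + Real.log 2 + b / (a + t - b) * (Real.log 2 + b) with hK
  set E := 1 + b / (τ - 3 * δ) with hE
  have h1 : ∀ᶠ Q : ℕ in atTop, Real.exp (t * N) ≤ 4 * (Q : ℝ) := by
    filter_upwards [eventually_ge_atTop ⌈Real.exp (t * N)⌉₊] with Q hQ
    have : Real.exp (t * N) ≤ (Q : ℝ) := (Nat.le_ceil _).trans (by exact_mod_cast hQ)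
    linarith [(Nat.cast_nonneg Q : (0 : ℝ) ≤ Q)]
  have h2 : ∀ᶠ Q : ℕ in atTop, K ≤ (ν - E) * Real.log Q :=
    ((Real.tendsto_log_atTop.comp tendsto_natCast_atTop_atTop).const_mul_atTop
      (by linarith : 0 < ν - E)).eventually_ge_atTop K
  filter_upwards [h1, h2, eventually_gt_atTop 0] with Q hQN hQK hQ0 P
  have hQ' : (1 : ℝ) ≤ Q := by exact_mod_cast hQ0
  have hne : ∀ n ≥ N, ∃ m ≥ n, (q m : ℝ) * P ≠ (p m : ℝ) * Q := by
    intro n hn
    by_contra hall
    push Not at hall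
    -- the forms would then be `q m * (x - P/Q)`, which cannot tend to zero
    have hxne : x - P / Q ≠ 0 := fun e => hx ⟨(P : ℚ) / Q, by push_cast; linarith⟩
    have hlim : Tendsto (fun m : ℕ => Real.exp (a * m) * |x - P / Q|) atTop atTop :=
      (Real.tendsto_exp_atTop.comp (tendsto_natCast_atTop_atTop.const_mul_atTop
        (by linarith : 0 < a))).atTop_mul_const (abs_pos.2 hxne)
    obtain ⟨m, hm, hmn⟩ := ((hlim.eventually_gt_atTop 1).and (eventually_ge_atTop n)).exists
    obtain ⟨g1, -, g3⟩ := hN m (hn.trans hmn)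
    have e : (q m : ℝ) * x - p m = q m * (x - P / Q) := by
      have : (p m : ℝ) = q m * (P / Q) := by
        rw [← mul_div_assoc, hall m hmn]; field_simp
      rw [this]; ring
    have : Real.exp (a * m) * |x - P / Q| ≤ 1 := by
      refine le_trans (le_trans ?_ (le_of_eq_of_le (abs_mul _ _).symm (le_of_eq_of_le
        (congrArg abs e.symm) g3))) (Real.exp_le_one_iff.2 ?_)
      · gcongr
      · have : (0 : ℝ) ≤ m := Nat.cast_nonneg m
        nlinarith
    linarith
  obtain ⟨m, hlow, hm⟩ := approx_lower ht0 q p N (fun n hn => (hN n hn).1)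
    (fun n hn => (hN n hn).2.1) (fun n hn => (hN n hn).2.2) hQ0 hQN P hne
  refine le_trans ?_ hlow
  have hlQ : 0 ≤ Real.log (Q : ℝ) := Real.log_nonneg hQ'
  have hbm : b * m + Real.log 2 + Real.log Q ≤ ν * Real.log Q := by
    have e4 : Real.log (4 * (Q : ℝ)) = Real.log 4 + Real.log Q :=
      Real.log_mul (by norm_num) (by linarith)
    have e2 : Real.log (2 * (Q : ℝ)) = Real.log 2 + Real.log Q :=
      Real.log_mul (by norm_num) (by linarith)
    have l2 : 0 < Real.log 2 := Real.log_pos (by norm_num)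
    have l4 : 0 < Real.log 4 := Real.log_pos (by norm_num)
    have hbb : b / t ≤ b / (τ - 3 * δ) := by
      gcongr <;> linarith
    have hgap' : a + t - b = τ - 3 * δ := by simp only [ha, hb, ht]; ring
    rcases hm with hm | hm
    · have : b * m ≤ b / t * Real.log 4 + b / t * Real.log Q + b := by
        calc b * m ≤ b * (Real.log (4 * Q) / t + 1) := by gcongr
          _ = _ := by rw [e4]; ring
      have h' : b / t * Real.log Q ≤ b / (τ - 3 * δ) * Real.log Q :=
        mul_le_mul_of_nonneg_right hbb hlQ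
      have hpos : 0 ≤ b / (a + t - b) * (Real.log 2 + b) := by positivity
      nlinarith [hQK]
    · have hm' : (m : ℝ) - 1 ≤ (Real.log 2 + Real.log Q + b) / (a + t - b) := by
        rw [le_div_iff₀ hgap, ← e2]; linarith
      have : b * m ≤ b / (a + t - b) * (Real.log 2 + b) + b / (τ - 3 * δ) * Real.log Q + b := by
        calc b * m ≤ b * ((Real.log 2 + Real.log Q + b) / (a + t - b) + 1) := by
              gcongr; linarith
          _ = _ := by rw [← hgap']; ring
      have hpos : 0 ≤ b / t * Real.log 4 := by positivity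
      nlinarith [hQK]
  calc (Q : ℝ) ^ (-ν) = Real.exp (-(ν * Real.log Q)) := by
        rw [Real.rpow_def_of_pos (by linarith)]; congr 1; ring
    _ ≤ Real.exp (-(b * m + Real.log 2 + Real.log Q)) := Real.exp_le_exp.2 (by linarith)
    _ = 1 / (2 * (Q : ℝ) * Real.exp (b * m)) := by
        rw [Real.exp_neg, Real.exp_add, Real.exp_add, Real.exp_log (by norm_num),
          Real.exp_log (by linarith), one_div]
        ring_nf

end Vale.Agent.P021
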