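import Mathlib

/-!
Common definitions for the bound `μ(π) ≤ 7.1022`: the integral `I n`, the residue `alpha n`,
and the interfaces between the modules.

`R n z = (z^4+6z^2+25)^(4000n) z^(4000n) / (z^2-25)^(5999n+1)`, integrated from `-1-2i` to `-1+2i`.
-/

namespace Vale.Agent.P021

open Polynomial Filter Topology

noncomputable section

/-- exponent of `z^4+6z^2+25` and of `z` -/
def eA (n : ℕ) : ℕ := 4000 * n

/-- exponent of `z^2-25` -/
def eM (n : ℕ) : ℕ := 5999 * n + 1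

/-- the integrand -/
def R (n : ℕ) (z : ℂ) : ℂ :=
  (z ^ 4 + 6 * z ^ 2 + 25) ^ eA n * z ^ eA n / (z ^ 2 - 25) ^ eM n

/-- `(1/i) ∫ R n`, from `-1-2i` to `-1+2i` along the vertical segment. -/
def I (n : ℕ) : ℝ := ∫ y in (-2 : ℝ)..2, (R n (-1 + (y : ℂ) * Complex.I)).re

/-- the numerator as a polynomial in `w = z^2-25` -/
def numW (n : ℕ) : ℚ[X] := (X ^ 2 + C 56 * X + C 800) ^ (4000 * n) * (X + C 25) ^ (2000 * n)

/-- the residue of `R n` at `z = 5`, expanded in powers of `w = z^2-25` -/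
def alpha (n : ℕ) : ℚ :=
  ∑ k ∈ Finset.range (eM n),
    (numW n).coeff (eM n - 1 - k) * ((-1) ^ k * (Nat.choose (2 * k) k : ℚ) / (10 * 100 ^ k))

/-- The saving of primes: `intLo f < n/p < intHi f` for `f < 4000`. -/
def intLo (f : ℕ) : ℚ := (f : ℚ) / 4000

/-- number of the pole block of interval `f` -/
def intM (f : ℕ) : ℕ := f * 5999 / 4000 + 1

/-- degree allowance of interval `f` -/
def intTh (f : ℕ) : ℕ := if f % 2 = 1 then 2 else 1

/-- upper end of interval `f` -/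
def intHi (f : ℕ) : ℚ :=
  min ((intM f : ℚ) / 5999)
    (min (((f : ℚ) + 1) / 4000) ((((5 * f + intTh f : ℕ) : ℚ) - 2 * (intM f : ℚ)) / 8002))

/-- primes saved at `n` -/
def Saved (n p : ℕ) : Prop :=
  p.Prime ∧ 20000 * n < p * p ∧ 10 < p ∧ p ≤ 8002 * n ∧
    ∃ f < 4000, intLo f * (p : ℚ) < n ∧ (n : ℚ) < intHi f * (p : ℚ)

/-- interface of module Growth: upper bound for the integral -/
def IntegralBoundStmt : Prop :=
  ∀ᶠ n : ℕ in atTop, |I n| ≤ Real.exp (-(7046.245 : ℝ) * n)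

/-- interface of module Growth: the size of the residue -/
def ResidueBoundStmt : Prop :=
  ∀ᶠ n : ℕ in atTop,
    Real.exp ((19987.78 : ℝ) * n) ≤ |(alpha n : ℝ)| ∧
      |(alpha n : ℝ)| ≤ Real.exp ((19987.795 : ℝ) * n)

/-- `2`-adic saving -/
def twoExp (n : ℕ) : ℕ := 5002 * n + n / 2 - 20

open Classical in
/-- product of the saved primes -/
def savedProd (n : ℕ) : ℕ := ∏ p ∈ (Finset.range (8002 * n + 1)).filter (Saved n), p

/-- the denominator of the linear form -/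
def den (n : ℕ) : ℚ := (Nat.lcmUpto (8002 * n) : ℚ) / ((savedProd n : ℚ) * 2 ^ twoExp n)

/-- interface of module DenRate: the size of the denominator -/
def DenRateStmt : Prop :=
  ∀ᶠ n : ℕ in atTop, Real.exp ((3239.776 : ℝ) * n) ≤ (den n : ℝ) ∧
    (den n : ℝ) ≤ Real.exp ((3239.782 : ℝ) * n)

/-- interface of module Arith: the integral is a linear form in `1` and `π` -/
def ArithStmt : Prop :=
  ∀ᶠ n : ℕ in atTop, ∃ p q : ℤ,
    (den n : ℝ) * I n = (q : ℝ) * Real.pi - p ∧ (q : ℚ) = -(den n) * alpha n / 2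

/-- interface of module Criterion: the conclusion -/
def ExponentStmt : Prop :=
  ∀ᶠ q : ℕ in atTop, ∀ p : ℤ, ((q : ℝ) ^ (7.1022 : ℝ))⁻¹ < |Real.pi - (p : ℝ) / q|

end

end Vale.Agent.P021
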