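import Mathlib
import Vale.Agent.Common.PNT
import Vale.Agent.P021.Defs

/-!
# The growth rate of the denominator

`den n = lcm(1..8002n) / (savedProd n * 2 ^ twoExp n)` has logarithmic rate
`8002 - (total length of the saved intervals) - 5002.5 log 2`, by the prime number theorem.
The sum over the 4000 intervals is evaluated in fixed point arithmetic by `decide +kernel`.
-/

open Filter Topology Finset
open Chebyshev

namespace Vale.Agent.P021

noncomputable section

/-- fixed point scale -/
def fpS : ℕ := 100000000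

/-- degree excess of interval `f` -/
def fpD (f : ℕ) : ℕ := 5 * f + intTh f - 2 * intM f

/-- rounded up quotient -/
def fpC (a b : ℕ) : ℕ := (a + b - 1) / b

/-- fixed point lower bound of the length of interval `f` in the `1/x` scale -/
def fpLow (f : ℕ) : ℕ :=
  if f = 0 then 0 else if fpD f = 0 then 0 else
    4000 * fpS / f -
      max (fpC (5999 * fpS) (intM f)) (max (fpC (4000 * fpS) (f + 1)) (fpC (8002 * fpS) (fpD f)))

/-- fixed point upper bound of the length of interval `f` in the `1/x` scale -/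
def fpUp (f : ℕ) : ℕ :=
  if f = 0 then 0 else if fpD f = 0 then 0 else
    fpC (4000 * fpS) f -
      max (5999 * fpS / intM f) (max (4000 * fpS / (f + 1)) (8002 * fpS / fpD f))

lemma fpLow_sum : 129475228000 ≤ ((List.range 4000).map fpLow).sum := by decide +kernel

lemma fpUp_sum : ((List.range 4000).map fpUp).sum ≤ 129475236000 := by decide +kernel

/-- the length of interval `f` in the `1/x` scale -/
def len (f : ℕ) : ℚ := if intLo f < intHi f then 1 / intLo f - 1 / intHi f else 0

lemma intM_pos (f : ℕ) : 0 < intM f := Nat.succ_pos _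

lemma intHi_zero_nonpos : intHi 0 ≤ 0 := by
  refine (min_le_right _ _).trans ((min_le_right _ _).trans ?_)
  norm_num [intM, intTh]

lemma intLo_nonneg (f : ℕ) : 0 ≤ intLo f := by unfold intLo; positivity

lemma intHi_le (f : ℕ) : intHi f ≤ ((f : ℚ) + 1) / 4000 :=
  (min_le_right _ _).trans (min_le_left _ _)

lemma len_eq (f : ℕ) :
    len f = if f = 0 ∨ fpD f = 0 then 0 else
      max 0 (4000 / (f : ℚ) -
        max (5999 / (intM f : ℚ)) (max (4000 / ((f : ℚ) + 1)) (8002 / (fpD f : ℚ)))) := by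
  rcases Nat.eq_zero_or_pos f with rfl | hf
  · rw [if_pos (Or.inl rfl), len, if_neg]
    have := intHi_zero_nonpos
    simp [intLo, not_lt.2 this]
  have hfq : (0 : ℚ) < f := by exact_mod_cast hf
  rcases Nat.eq_zero_or_pos (fpD f) with hD | hD
  · rw [if_pos (Or.inr hD), len, if_neg]
    have h : intHi f ≤ 0 := by
      refine (min_le_right _ _).trans ((min_le_right _ _).trans ?_)
      unfold fpD at hD
      rw [Nat.sub_eq_zero_iff_le] at hD
      have : ((5 * f + intTh f : ℕ) : ℚ) ≤ ((2 * intM f : ℕ) : ℚ) := by exact_mod_cast hD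
      refine div_nonpos_of_nonpos_of_nonneg ?_ (by norm_num)
      push_cast at this ⊢
      linarith
    exact not_lt.2 (h.trans (intLo_nonneg f))
  · rw [if_neg (by omega)]
    have hM : (0 : ℚ) < intM f := by exact_mod_cast intM_pos f
    have hDq : (0 : ℚ) < fpD f := by exact_mod_cast hD
    have e : ((5 * f + intTh f : ℕ) : ℚ) - 2 * (intM f : ℚ) = (fpD f : ℚ) := by
      unfold fpD at hD ⊢
      rw [Nat.cast_sub (by omega)]
      push_cast
      ring
    have hpos : 0 < intHi f := by
      unfold intHi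
      rw [e]
      positivity
    have inv_min : ∀ x y : ℚ, 0 < x → 0 < y → 1 / min x y = max (1 / x) (1 / y) := by
      intro x y hx hy
      rcases le_total x y with h | h
      · rw [min_eq_left h, max_eq_left (one_div_le_one_div_of_le hx h)]
      · rw [min_eq_right h, max_eq_right (one_div_le_one_div_of_le hy h)]
    have e' : 1 / intHi f =
        max (5999 / (intM f : ℚ)) (max (4000 / ((f : ℚ) + 1)) (8002 / (fpD f : ℚ))) := by
      unfold intHi
      rw [e, inv_min _ _ (by positivity) (by positivity),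
        inv_min _ _ (by positivity) (by positivity), one_div_div, one_div_div, one_div_div]
    have elo : 1 / intLo f = 4000 / (f : ℚ) := by unfold intLo; rw [one_div_div]
    have hlo : 0 < intLo f := by unfold intLo; positivity
    rw [len]
    split_ifs with h
    · rw [← e', ← elo, max_eq_right]
      exact sub_nonneg.2 (one_div_le_one_div_of_le hlo h.le)
    · rw [← e', ← elo, max_eq_left]
      exact sub_nonpos.2 (one_div_le_one_div_of_le hpos (not_lt.1 h))

lemma le_fpC (a : ℕ) {b : ℕ} (hb : 0 < b) : (a : ℚ) / b ≤ (fpC a b : ℚ) := by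
  rw [div_le_iff₀ (by exact_mod_cast hb)]
  have h : a ≤ fpC a b * b := by
    unfold fpC
    have h1 := Nat.div_add_mod (a + b - 1) b
    have h2 := Nat.mod_lt (a + b - 1) hb
    rw [mul_comm]
    omega
  exact_mod_cast h

lemma fp_bounds (f : ℕ) :
    (fpLow f : ℚ) ≤ fpS * len f ∧ fpS * len f ≤ fpUp f := by
  rw [len_eq]
  unfold fpLow fpUp
  split_ifs with h1 h2 h3 h4
  all_goals try (exfalso; omega)
  all_goals try simp
  have hf : 0 < f := by omega
  have hD : 0 < fpD f := by omega
  set g : ℚ := 4000 / (f : ℚ) -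
    max (5999 / (intM f : ℚ)) (max (4000 / ((f : ℚ) + 1)) (8002 / (fpD f : ℚ))) with hg
  have hS : (0 : ℚ) < fpS := by norm_num [fpS]
  have eS : ∀ a b : ℕ, ((a * fpS : ℕ) : ℚ) / b = fpS * ((a : ℚ) / b) := fun a b => by
    push_cast; ring
  constructor
  · rcases le_or_gt (4000 * fpS / f) (max (fpC (5999 * fpS) (intM f))
      (max (fpC (4000 * fpS) (f + 1)) (fpC (8002 * fpS) (fpD f)))) with h | h
    · rw [Nat.sub_eq_zero_of_le h]
      simp only [Nat.cast_zero]
      positivity
    · rw [Nat.cast_sub h.le]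
      push_cast
      refine le_trans ?_ (mul_le_mul_of_nonneg_left (le_max_right 0 g) hS.le)
      rw [hg, mul_sub, mul_max_of_nonneg _ _ hS.le, mul_max_of_nonneg _ _ hS.le]
      refine sub_le_sub ?_ (max_le_max ?_ (max_le_max ?_ ?_))
      · exact Nat.cast_div_le.trans_eq (by rw [eS]; norm_num)
      · refine le_trans (le_of_eq ?_) (le_fpC (5999 * fpS) (intM_pos f)); rw [eS]; norm_num
      · refine le_trans (le_of_eq ?_) (le_fpC (4000 * fpS) (Nat.succ_pos f)); rw [eS]; norm_num
      · refine le_trans (le_of_eq ?_) (le_fpC (8002 * fpS) hD); rw [eS]; norm_num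
  · rw [mul_max_of_nonneg _ _ hS.le, mul_zero]
    refine max_le (Nat.cast_nonneg _) ?_
    set A := fpC (4000 * fpS) f
    set B := max (5999 * fpS / intM f) (max (4000 * fpS / (f + 1)) (8002 * fpS / fpD f))
    have hsub : (A : ℚ) - B ≤ ((A - B : ℕ) : ℚ) := by
      rcases le_total A B with h | h
      · rw [Nat.sub_eq_zero_of_le h]
        have : (A : ℚ) ≤ B := by exact_mod_cast h
        push_cast; linarith
      · rw [Nat.cast_sub h]
    refine le_trans ?_ hsub
    rw [hg, mul_sub, mul_max_of_nonneg _ _ hS.le, mul_max_of_nonneg _ _ hS.le]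
    simp only [B, Nat.cast_max]
    refine sub_le_sub ?_ (max_le_max ?_ (max_le_max ?_ ?_))
    · refine le_trans (le_of_eq ?_) (le_fpC (4000 * fpS) hf); rw [eS]; norm_num
    · exact Nat.cast_div_le.trans_eq (by rw [eS]; norm_num)
    · exact Nat.cast_div_le.trans_eq (by rw [eS]; norm_num)
    · exact Nat.cast_div_le.trans_eq (by rw [eS]; norm_num)

lemma list_sum_range (g : ℕ → ℕ) : ∀ N, ((List.range N).map g).sum = ∑ f ∈ range N, g f
  | 0 => by simp
  | N + 1 => by simp [List.range_succ, Finset.sum_range_succ, list_sum_range g N]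

/-- the total saving, in bounds -/
lemma len_sum_bounds :
    (1294.7522 : ℝ) ≤ ∑ f ∈ range 4000, (len f : ℝ) ∧
      ∑ f ∈ range 4000, (len f : ℝ) ≤ 1294.7524 := by
  have hS : (fpS : ℚ) = 100000000 := by norm_num [fpS]
  have h1 : (129475228000 : ℚ) ≤ 100000000 * ∑ f ∈ range 4000, len f := by
    have := fpLow_sum
    rw [list_sum_range] at this
    rw [← hS, mul_sum]
    refine le_trans ?_ (sum_le_sum fun f _ => (fp_bounds f).1)
    exact_mod_cast this
  have h2 : 100000000 * ∑ f ∈ range 4000, len f ≤ (129475236000 : ℚ) := by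
    have := fpUp_sum
    rw [list_sum_range] at this
    rw [← hS, mul_sum]
    refine le_trans (sum_le_sum fun f _ => (fp_bounds f).2) ?_
    exact_mod_cast this
  have e : ((∑ f ∈ range 4000, len f : ℚ) : ℝ) = ∑ f ∈ range 4000, (len f : ℝ) := by push_cast; rfl
  rw [← e]
  constructor
  · have : (1294.7522 : ℚ) ≤ ∑ f ∈ range 4000, len f := by linarith
    have := (Rat.cast_le (K := ℝ)).2 this
    norm_num at this ⊢
    linarith
  · have : ∑ f ∈ range 4000, len f ≤ (1294.7524 : ℚ) := by linarith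
    have := (Rat.cast_le (K := ℝ)).2 this
    norm_num at this ⊢
    linarith

open Classical in
/-- the saved primes of interval `f` -/
def savedIn (n f : ℕ) : Finset ℕ :=
  (range (8002 * n + 1)).filter
    fun p => p.Prime ∧ intLo f * (p : ℚ) < n ∧ (n : ℚ) < intHi f * (p : ℚ)

lemma savedIn_pos {n f p : ℕ} (hf4 : f < 4000) (hp : p ∈ savedIn n f) : 0 < f ∧ intLo f < intHi f ∧ n < p := by
  simp only [savedIn, mem_filter] at hp
  obtain ⟨-, hpr, h1, h2⟩ := hp
  have hp0 : (0 : ℚ) < p := by exact_mod_cast hpr.pos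
  have hn0 : (0 : ℚ) ≤ n := Nat.cast_nonneg n
  have hlt : intLo f < intHi f := lt_of_mul_lt_mul_right (h1.trans h2) hp0.le
  have hf : 0 < f := by
    rcases Nat.eq_zero_or_pos f with rfl | hf
    · exact absurd (hlt.trans_le intHi_zero_nonpos) (not_lt.2 (intLo_nonneg 0))
    · exact hf
  refine ⟨hf, hlt, ?_⟩
  have hh : intHi f ≤ 1 := by
    refine (intHi_le f).trans ?_
    rw [div_le_one (by norm_num)]
    have : ((f : ℕ) : ℚ) + 1 ≤ 4000 := by exact_mod_cast hf4
    linarith
  have : (n : ℚ) < p := h2.trans_le (by nlinarith)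
  exact_mod_cast this

lemma savedProd_log {n : ℕ} (hn : 20000 ≤ n) :
    Real.log (savedProd n : ℝ) = ∑ f ∈ range 4000, ∑ p ∈ savedIn n f, Real.log p := by
  classical
  obtain ⟨N, hN⟩ : ∃ N : ℕ, N = 4000 := ⟨_, rfl⟩
  rw [← hN]
  have key : (Finset.range (8002 * n + 1)).filter (Saved n)
      = (range N).biUnion (savedIn n) := by
    ext p
    constructor
    · intro hp
      simp only [mem_filter, Finset.mem_range, Saved] at hp
      obtain ⟨hr, hpr, -, -, -, f, hf, h1, h2⟩ := hp
      exact mem_biUnion.2 ⟨f, mem_range.2 (by omega), mem_filter.2 ⟨mem_range.2 hr, hpr, h1, h2⟩⟩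
    · intro hp
      obtain ⟨f, hf, hpf⟩ := mem_biUnion.1 hp
      have hf4 : f < 4000 := hN ▸ mem_range.1 hf
      have hnp := (savedIn_pos hf4 hpf).2.2
      simp only [savedIn, mem_filter, Finset.mem_range] at hpf
      obtain ⟨hr, hpr, h1, h2⟩ := hpf
      simp only [mem_filter, Finset.mem_range, Saved]
      exact ⟨hr, hpr, by nlinarith, by omega, by omega, f, hf4, h1, h2⟩
  have hd : ((range N : Finset ℕ) : Set ℕ).PairwiseDisjoint (savedIn n) := by
    intro f _ g _ hfg
    rw [Function.onFun, Finset.disjoint_left]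
    intro p hf hg
    simp only [savedIn, mem_filter] at hf hg
    obtain ⟨-, hpr, f1, f2⟩ := hf
    obtain ⟨-, -, g1, g2⟩ := hg
    have hp0 : (0 : ℚ) < p := by exact_mod_cast hpr.pos
    have a : ∀ i j : ℕ, intLo i * (p : ℚ) < n → (n : ℚ) < intHi j * (p : ℚ) → i ≤ j := by
      intro i j hi hj
      have h : intLo i < ((j : ℚ) + 1) / 4000 :=
        lt_of_mul_lt_mul_right
          ((hi.trans hj).trans_le (mul_le_mul_of_nonneg_right (intHi_le j) hp0.le)) hp0.le
      unfold intLo at h
      rw [div_lt_div_iff_of_pos_right (by norm_num)] at h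
      have : i < j + 1 := by exact_mod_cast h
      omega
    exact hfg (le_antisymm (a f g f1 g2) (a g f g1 f2))
  rw [savedProd, key, Nat.cast_prod, Real.log_prod, Finset.sum_biUnion hd]
  intro p hp
  obtain ⟨f, -, hpf⟩ := mem_biUnion.1 hp
  simp only [savedIn, mem_filter] at hpf
  exact_mod_cast hpf.2.1.ne_zero

lemma theta_seq {c : ℝ} (hc : 0 < c) {x : ℕ → ℝ}
    (hx : Tendsto (fun n : ℕ => x n / n) atTop (𝓝 c)) :
    Tendsto (fun n : ℕ => θ (x n) / n) atTop (𝓝 c) := by
  have hinf : Tendsto x atTop atTop := by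
    have h := hx.pos_mul_atTop hc tendsto_natCast_atTop_atTop
    refine h.congr' ?_
    filter_upwards [eventually_gt_atTop 0] with n hn
    have : (n : ℝ) ≠ 0 := by exact_mod_cast hn.ne'
    field_simp
  have h := (Vale.Agent.Common.PNT.tendsto_theta_div.comp hinf).mul hx
  rw [one_mul] at h
  refine h.congr' ?_
  filter_upwards [hinf.eventually_gt_atTop 0] with n hn
  simp only [Function.comp_apply]
  field_simp

lemma savedIn_rate {f : ℕ} (hf4 : f < 4000) :
    Tendsto (fun n : ℕ => (∑ p ∈ savedIn n f, Real.log p) / n) atTop (𝓝 (len f : ℝ)) := by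
  classical
  by_cases hlt : intLo f < intHi f
  swap
  · have he : ∀ n, savedIn n f = ∅ := fun n =>
      eq_empty_of_forall_notMem fun p hp => hlt (savedIn_pos hf4 hp).2.1
    simp [he, len, hlt]
  have hf : 0 < f := by
    rcases Nat.eq_zero_or_pos f with rfl | hf
    · exact absurd (hlt.trans_le intHi_zero_nonpos) (not_lt.2 (intLo_nonneg 0))
    · exact hf
  have hloq : (0 : ℚ) < intLo f := by
    have : (0 : ℚ) < f := by exact_mod_cast hf
    unfold intLo; positivity
  set lo : ℝ := (intLo f : ℝ) with hlo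
  set hi : ℝ := (intHi f : ℝ) with hhi
  have hlo0 : 0 < lo := by rw [hlo]; exact_mod_cast hloq
  have hlh : lo < hi := by rw [hlo, hhi]; exact_mod_cast hlt
  have hhi0 : 0 < hi := hlo0.trans hlh
  have hlo4 : 1 / lo ≤ 4000 := by
    have : (1 : ℚ) / intLo f ≤ 4000 := by
      unfold intLo
      rw [one_div_div]
      exact div_le_self (by norm_num) (by exact_mod_cast hf)
    have := (Rat.cast_le (K := ℝ)).2 this
    push_cast at this
    exact this
  have hlim : (len f : ℝ) = 1 / lo - 1 / hi := by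
    rw [len, if_pos hlt]; push_cast; rfl
  rw [hlim]
  have tA : Tendsto (fun n : ℕ => θ ((n : ℝ) / lo) / n) atTop (𝓝 (1 / lo)) := by
    refine theta_seq (by positivity) (tendsto_const_nhds.congr' ?_)
    filter_upwards [eventually_gt_atTop 0] with n hn
    have : (n : ℝ) ≠ 0 := by exact_mod_cast hn.ne'
    field_simp
  have tA' : Tendsto (fun n : ℕ => θ ((n : ℝ) / lo - 1) / n) atTop (𝓝 (1 / lo)) := by
    refine theta_seq (by positivity) ?_
    have := (tendsto_const_nhds (x := 1 / lo) (f := atTop (α := ℕ))).sub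
      (tendsto_const_div_atTop_nhds_zero_nat (1 : ℝ))
    rw [sub_zero] at this
    refine this.congr' ?_
    filter_upwards [eventually_gt_atTop 0] with n hn
    have : (n : ℝ) ≠ 0 := by exact_mod_cast hn.ne'
    field_simp
  have tB : Tendsto (fun n : ℕ => θ ((n : ℝ) / hi) / n) atTop (𝓝 (1 / hi)) := by
    refine theta_seq (by positivity) (tendsto_const_nhds.congr' ?_)
    filter_upwards [eventually_gt_atTop 0] with n hn
    have : (n : ℝ) ≠ 0 := by exact_mod_cast hn.ne'
    field_simp
  have hmem : ∀ n p : ℕ, p ∈ savedIn n f ↔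
      p.Prime ∧ (n : ℝ) / hi < p ∧ (p : ℝ) < (n : ℝ) / lo := by
    intro n p
    simp only [savedIn, mem_filter, Finset.mem_range]
    rw [div_lt_iff₀ hhi0, lt_div_iff₀ hlo0, hlo, hhi]
    constructor
    · rintro ⟨-, hp, h1, h2⟩
      refine ⟨hp, ?_, ?_⟩
      · rw [mul_comm]; exact_mod_cast h2
      · rw [mul_comm]; exact_mod_cast h1
    · rintro ⟨hp, h1, h2⟩
      refine ⟨?_, hp, ?_, ?_⟩
      · have h3 : (p : ℝ) ≤ (n : ℝ) * (1 / lo) := by
          rw [mul_one_div, le_div_iff₀ hlo0, hlo]; exact h2.le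
        have : (p : ℝ) ≤ (n : ℝ) * 4000 := h3.trans (by gcongr)
        have : p ≤ n * 4000 := by exact_mod_cast this
        omega
      · rw [mul_comm] at h2; exact_mod_cast h2
      · rw [mul_comm (p : ℝ)] at h1; exact_mod_cast h1
  have lower : ∀ n : ℕ, θ ((n : ℝ) / lo - 1) - θ ((n : ℝ) / hi)
      ≤ ∑ p ∈ savedIn n f, Real.log p := by
    intro n
    rw [theta_eq_sum_primesLE, theta_eq_sum_primesLE]
    have h : Nat.primesLE ⌊(n : ℝ) / lo - 1⌋₊ ⊆
        savedIn n f ∪ Nat.primesLE ⌊(n : ℝ) / hi⌋₊ := by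
      intro p hp
      rw [Nat.mem_primesLE] at hp
      obtain ⟨hple, hpr⟩ := hp
      rw [Finset.mem_union, hmem, Nat.mem_primesLE]
      by_cases hb : (n : ℝ) / hi < p
      · left
        refine ⟨hpr, hb, ?_⟩
        rcases le_or_gt 0 ((n : ℝ) / lo - 1) with h0 | h0
        · have := (Nat.le_floor_iff h0).1 hple
          linarith
        · rw [Nat.floor_of_nonpos h0.le] at hple
          have := hpr.pos
          omega
      · right
        exact ⟨Nat.le_floor (not_lt.1 hb), hpr⟩
    have hnn : ∀ p : ℕ, 0 ≤ Real.log p := fun p => Real.log_natCast_nonneg p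
    have := (sum_le_sum_of_subset_of_nonneg h (f := fun p : ℕ => Real.log p) fun p _ _ => hnn p)
    have hu := sum_union_inter (s₁ := savedIn n f) (s₂ := Nat.primesLE ⌊(n : ℝ) / hi⌋₊)
      (f := fun p : ℕ => Real.log p)
    have h0 : 0 ≤ ∑ p ∈ savedIn n f ∩ Nat.primesLE ⌊(n : ℝ) / hi⌋₊, Real.log (p : ℝ) :=
      sum_nonneg fun p _ => hnn p
    linarith
  have upper : ∀ n : ℕ, ∑ p ∈ savedIn n f, Real.log p
      ≤ θ ((n : ℝ) / lo) - θ ((n : ℝ) / hi) := by
    intro n
    rw [theta_eq_sum_primesLE, theta_eq_sum_primesLE]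
    have hnn : (0 : ℝ) ≤ n := Nat.cast_nonneg n
    have hsub : Nat.primesLE ⌊(n : ℝ) / hi⌋₊ ⊆ Nat.primesLE ⌊(n : ℝ) / lo⌋₊ := by
      intro p hp
      rw [Nat.mem_primesLE] at hp ⊢
      exact ⟨hp.1.trans (Nat.floor_mono (by gcongr)), hp.2⟩
    have h := Finset.sum_sdiff hsub (f := fun p : ℕ => Real.log p)
    have hs : savedIn n f ⊆
        Nat.primesLE ⌊(n : ℝ) / lo⌋₊ \ Nat.primesLE ⌊(n : ℝ) / hi⌋₊ := by
      intro p hp
      rw [hmem] at hp
      rw [Finset.mem_sdiff, Nat.mem_primesLE, Nat.mem_primesLE]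
      refine ⟨⟨Nat.le_floor hp.2.2.le, hp.1⟩, fun h' => ?_⟩
      have := (Nat.le_floor_iff (by positivity)).1 h'.1
      linarith [hp.2.1]
    have := sum_le_sum_of_subset_of_nonneg hs (f := fun p : ℕ => Real.log p)
      fun p _ _ => Real.log_natCast_nonneg p
    linarith
  refine tendsto_of_tendsto_of_tendsto_of_le_of_le (tA'.sub tB) (tA.sub tB) (fun n => ?_)
    (fun n => ?_)
  · rw [← sub_div]; exact div_le_div_of_nonneg_right (lower n) (Nat.cast_nonneg n)
  · rw [← sub_div]; exact div_le_div_of_nonneg_right (upper n) (Nat.cast_nonneg n)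

theorem denRate : DenRateStmt := by
  have hlcm : Tendsto (fun n : ℕ => Real.log (Nat.lcmUpto (8002 * n) : ℝ) / n) atTop
      (𝓝 (8002 : ℝ)) := by
    have hx : Tendsto (fun n : ℕ => ((8002 * n : ℕ) : ℝ)) atTop atTop :=
      tendsto_natCast_atTop_atTop.comp
        (Filter.tendsto_atTop_mono (fun n => (Nat.le_mul_of_pos_left n (by norm_num))) tendsto_id)
    have h := (Vale.Agent.Common.PNT.tendsto_psi_div.comp hx).const_mul (8002 : ℝ)
    rw [mul_one] at h
    refine h.congr' ?_
    filter_upwards [eventually_gt_atTop 0] with n hn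
    have : (n : ℝ) ≠ 0 := by exact_mod_cast hn.ne'
    simp only [Function.comp_apply]
    rw [psi_eq_log_lcmUpto]
    push_cast
    field_simp
  have hsum : Tendsto (fun n : ℕ => ∑ f ∈ range 4000, (∑ p ∈ savedIn n f, Real.log p) / n) atTop
      (𝓝 (∑ f ∈ range 4000, (len f : ℝ))) :=
    tendsto_finsetSum _ fun f hf => savedIn_rate (mem_range.1 hf)
  obtain ⟨s1, s2⟩ := len_sum_bounds
  have l1 : (0.6931471803 : ℝ) < Real.log 2 := Real.log_two_gt_d9
  have l2 : Real.log 2 < (0.6931471808 : ℝ) := Real.log_two_lt_d9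
  filter_upwards [hlcm.eventually (Ioo_mem_nhds (show (8001.9999 : ℝ) < 8002 by norm_num)
      (show (8002 : ℝ) < 8002.0001 by norm_num)),
    hsum.eventually (Ioo_mem_nhds (sub_lt_self _ (show (0 : ℝ) < 0.0001 by norm_num))
      (lt_add_of_pos_right _ (show (0 : ℝ) < 0.0001 by norm_num))),
    eventually_ge_atTop 200000] with n hL hS hn
  have hn' : (0 : ℝ) < n := by exact_mod_cast (show 0 < n by omega)
  obtain ⟨L1, L2⟩ := hL
  obtain ⟨S1, S2⟩ := hS
  rw [← Finset.sum_div, ← savedProd_log (show 20000 ≤ n by omega)] at S1 S2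
  rw [lt_div_iff₀ hn'] at L1 S1
  rw [div_lt_iff₀ hn'] at L2 S2
  have hP : (0 : ℝ) < savedProd n := by
    rw [savedProd]
    push_cast
    exact prod_pos fun p hp => by
      simp only [mem_filter, Saved] at hp
      exact_mod_cast hp.2.1.pos
  have hLc : (0 : ℝ) < (Nat.lcmUpto (8002 * n) : ℝ) := by exact_mod_cast Nat.lcmUpto_pos _
  have e : (den n : ℝ) = Real.exp (Real.log (Nat.lcmUpto (8002 * n) : ℝ)
      - Real.log (savedProd n : ℝ) - (twoExp n : ℝ) * Real.log 2) := by
    rw [Real.exp_sub, Real.exp_sub, Real.exp_log hLc, Real.exp_log hP,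
      Real.exp_nat_mul, Real.exp_log (by norm_num : (0 : ℝ) < 2), den]
    push_cast
    rw [div_div]
  have t1 : ((twoExp n : ℕ) : ℝ) ≤ 5002.5 * n - 20 := by
    have h : 2 * twoExp n + 40 ≤ 10005 * n := by unfold twoExp; omega
    have : (2 : ℝ) * (twoExp n : ℝ) + 40 ≤ 10005 * n := by exact_mod_cast h
    linarith
  have t2 : 5002.5 * (n : ℝ) - 21 ≤ (twoExp n : ℝ) := by
    have h : 10005 * n ≤ 2 * twoExp n + 42 := by unfold twoExp; omega
    have : (10005 : ℝ) * n ≤ 2 * (twoExp n : ℝ) + 42 := by exact_mod_cast h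
    linarith
  have hn2 : (200000 : ℝ) ≤ n := by exact_mod_cast hn
  rw [e]
  constructor <;> refine Real.exp_le_exp.2 ?_
  · nlinarith
  · nlinarith

end

end Vale.Agent.P021
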