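import Mathlib
import Vale.Agent.P021.Defs
import Vale.Agent.P021.Criterion

/-!
# From the four bounds to the exponent `7.1022`
-/

open Filter Topology

namespace Vale.Agent.P021

/-- The integral, residue, denominator and arithmetic bounds give exponent `7.1022` for `π`. -/
theorem exponent_of_bounds (hI : IntegralBoundStmt) (hA : ResidueBoundStmt) (hD : DenRateStmt)
    (hL : ArithStmt) : ExponentStmt := by
  classical
  obtain ⟨N, hN⟩ := eventually_atTop.1 (hI.and (hA.and (hD.and (hL.and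
    (eventually_ge_atTop 10000)))))
  choose p q hpq using fun n : {n : ℕ // N ≤ n} => (hN n.1 n.2).2.2.2.1
  let P' : ℕ → ℤ := fun n => if h : N ≤ n then p ⟨n, h⟩ else 0
  let Q' : ℕ → ℤ := fun n => if h : N ≤ n then q ⟨n, h⟩ else 0
  have key : ∀ n ≥ N, (den n : ℝ) * I n = (Q' n : ℝ) * Real.pi - P' n ∧
      (Q' n : ℚ) = -(den n) * alpha n / 2 := by
    intro n hn
    simp only [P', Q', dif_pos hn]
    exact hpq ⟨n, hn⟩
  have hbounds : ∀ n ≥ N, Real.exp ((23227.5559 : ℝ) * n) ≤ |(Q' n : ℝ)| ∧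
      |(Q' n : ℝ)| ≤ Real.exp ((23227.577 : ℝ) * n) ∧
      |(Q' n : ℝ) * Real.pi - P' n| ≤ Real.exp (-(3806.463 : ℝ) * n) := by
    intro n hn
    obtain ⟨h1, ⟨h2, h3⟩, ⟨h4, h5⟩, -, h6⟩ := hN n hn
    obtain ⟨k1, k2⟩ := key n hn
    have hdp : 0 < (den n : ℝ) := (Real.exp_pos _).trans_le h4
    have eQ : |(Q' n : ℝ)| = (den n : ℝ) * |(alpha n : ℝ)| / 2 := by
      have := congrArg (fun x : ℚ => (x : ℝ)) k2
      push_cast at this
      rw [this, abs_div, abs_mul, abs_neg, abs_of_pos hdp, abs_two]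
    refine ⟨?_, ?_, ?_⟩
    · rw [eQ, le_div_iff₀ (by norm_num : (0 : ℝ) < 2)]
      refine le_trans ?_ (mul_le_mul h4 h2 (Real.exp_nonneg _) hdp.le)
      rw [← Real.exp_add]
      have hn' : (10000 : ℝ) ≤ n := by exact_mod_cast h6
      have hlog : Real.log 2 < 0.6931471808 := Real.log_two_lt_d9
      calc Real.exp (23227.5559 * n) * 2
          = Real.exp (23227.5559 * n + Real.log 2) := by
            rw [Real.exp_add, Real.exp_log (by norm_num : (0 : ℝ) < 2)]
        _ ≤ _ := Real.exp_le_exp.2 (by nlinarith)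
    · rw [eQ]
      refine (div_le_self (by positivity) (by norm_num)).trans ?_
      refine (mul_le_mul h5 h3 (abs_nonneg _) (Real.exp_nonneg _)).trans_eq ?_
      rw [← Real.exp_add]
      ring_nf
    · rw [← k1, abs_mul, abs_of_pos hdp]
      refine (mul_le_mul h5 h1 (abs_nonneg _) (Real.exp_nonneg _)).trans_eq ?_
      rw [← Real.exp_add]
      ring_nf
  have hne : ∀ (R : ℕ) (hR : 0 < R) (P : ℤ), ∀ n ≥ N, ∃ m ≥ n,
      (Q' m : ℝ) * P ≠ (P' m : ℝ) * R := by
    intro R hR P n hn
    by_contra hall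
    push Not at hall
    have hR' : (R : ℝ) ≠ 0 := by exact_mod_cast hR.ne'
    have hne : Real.pi - P / R ≠ 0 := fun e =>
      irrational_pi ⟨(P : ℚ) / R, by push_cast; linarith⟩
    have hlim : Tendsto (fun m : ℕ => Real.exp ((23227.5559 : ℝ) * m) * |Real.pi - P / R|)
        atTop atTop :=
      (Real.tendsto_exp_atTop.comp (tendsto_natCast_atTop_atTop.const_mul_atTop
        (by norm_num))).atTop_mul_const (abs_pos.2 hne)
    obtain ⟨m, hm, hmn⟩ := ((hlim.eventually_gt_atTop 1).and (eventually_ge_atTop n)).exists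
    obtain ⟨b1, -, b3⟩ := hbounds m (hn.trans hmn)
    have e : (Q' m : ℝ) * Real.pi - P' m = Q' m * (Real.pi - P / R) := by
      have : (P' m : ℝ) = Q' m * (P / R) := by
        rw [← mul_div_assoc, hall m hmn, mul_div_assoc, div_self hR', mul_one]
      rw [this]; ring
    rw [e, abs_mul] at b3
    have h' : Real.exp ((23227.5559 : ℝ) * m) * |Real.pi - P / R| ≤ 1 := by
      refine le_trans ((mul_le_mul_of_nonneg_right b1 (abs_nonneg _)).trans b3) ?_
      rw [Real.exp_le_one_iff]
      have : (0 : ℝ) ≤ m := Nat.cast_nonneg m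
      linarith
    linarith
  have hlogQ : Tendsto (fun Q : ℕ => Real.log (Q : ℝ)) atTop atTop :=
    Real.tendsto_log_atTop.comp tendsto_natCast_atTop_atTop
  have hbig : ∀ᶠ Q : ℕ in atTop, Real.exp ((3806.463 : ℝ) * N) ≤ 4 * (Q : ℝ) := by
    filter_upwards [eventually_ge_atTop ⌈Real.exp ((3806.463 : ℝ) * N)⌉₊] with Q hQ
    have : Real.exp ((3806.463 : ℝ) * N) ≤ (Q : ℝ) :=
      (Nat.le_ceil _).trans (by exact_mod_cast hQ)
    linarith [(Nat.cast_nonneg Q : (0 : ℝ) ≤ Q)]
  filter_upwards [hbig, hlogQ.eventually_ge_atTop (1000000000000 : ℝ),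
    eventually_gt_atTop 0] with R hR1 hR2 hR0
  intro P
  obtain ⟨m, hlow, hm⟩ := approx_lower (x := Real.pi) (a := 23227.5559) (b := 23227.577)
    (t := 3806.463) (by norm_num) Q' P' N (fun n hn => (hbounds n hn).1)
    (fun n hn => (hbounds n hn).2.1) (fun n hn => (hbounds n hn).2.2) hR0 hR1 P (hne R hR0 P)
  refine lt_of_lt_of_le ?_ hlow
  have hR' : (0 : ℝ) < R := by exact_mod_cast hR0
  rw [← Real.rpow_neg hR'.le, Real.rpow_def_of_pos hR']
  have l2 : Real.log 2 < 0.6931471808 := Real.log_two_lt_d9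
  have l20 : 0 < Real.log 2 := Real.log_pos (by norm_num)
  have e4 : Real.log (4 * (R : ℝ)) = 2 * Real.log 2 + Real.log R := by
    rw [Real.log_mul (by norm_num) hR'.ne', show (4 : ℝ) = 2 * 2 by norm_num,
      Real.log_mul (by norm_num) (by norm_num)]
    ring
  have e2 : Real.log (2 * (R : ℝ)) = Real.log 2 + Real.log R :=
    Real.log_mul (by norm_num) hR'.ne'
  have hexp : (23227.577 : ℝ) * m + Real.log 2 + Real.log R < 7.1022 * Real.log R := by
    rcases hm with hm | hm
    · rw [e4] at hm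
      have : (m : ℝ) ≤ (2 * 0.6931471808 + Real.log R) / 3806.463 + 1 :=
        hm.trans (by gcongr)
      rw [div_add_one (by norm_num), le_div_iff₀ (by norm_num)] at this
      nlinarith
    · rw [e2] at hm
      nlinarith
  calc Real.exp (Real.log R * -7.1022)
      < Real.exp (-((23227.577 : ℝ) * m + Real.log 2 + Real.log R)) :=
        Real.exp_lt_exp.2 (by linarith)
    _ = 1 / (2 * (R : ℝ) * Real.exp (23227.577 * m)) := by
        rw [Real.exp_neg, Real.exp_add, Real.exp_add, Real.exp_log (by norm_num : (0 : ℝ) < 2),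
          Real.exp_log hR', one_div]
        ring_nf

end Vale.Agent.P021
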