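import Mathlib

/-!
# Numerical certificates for the growth bounds

Comparisons of large integers (checked by kernel evaluation), and a lower bound of an integer
polynomial on an interval from its Taylor coefficients at the left end.
-/

namespace Vale.Agent.P021

/-- The segment certificate: `φ² ≤ 2 ^ (-20331.17)`. -/
theorem int_cert : ((49938349 * 2000 * 60610717) ^ 2000 * 60610717) ^ 100 * 2 ^ 2033117 ≤
    (((10 : ℕ) ^ 12 * 289 ^ 4) ^ 2000 * 289 ^ 2) ^ 100 := by decide +kernel

/-- The lower certificate for the residue. -/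
theorem res_lo_cert :
    2 ^ 2883628 * ((1417 : ℕ) ^ 1417 * 1919 ^ 1919 * 664 ^ 664 * 1246 ^ 1246 * 754 ^ 754) ^ 100 ≤
      (4000 ^ 4000 * 2000 ^ 2000 * 56 ^ 1919 * 800 ^ 664 * 25 ^ 754) ^ 100 := by decide +kernel

/-- The upper certificate for the residue. -/
theorem res_up_cert : (((43408 : ℕ) ^ 4000 * 199 ^ 2000)) ^ 100 ≤
    2 ^ 2883629 * (124 ^ 5999 * 3 ^ 4001) ^ 100 := by decide +kernel

/-- The certificate for the tail of the residue. -/
theorem res_tail_cert : (2825 : ℕ) ^ 4000 ≤ 2 ^ 27286 * 25 ^ 3999 := by decide +kernel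

/-- Value of an integer coefficient list, lowest degree first. -/
def evalL : List ℤ → ℝ → ℝ
  | [], _ => 0
  | c :: cs, x => c + x * evalL cs x

/-- Sum of coefficient lists. -/
def addL : List ℤ → List ℤ → List ℤ
  | [], q => q
  | c :: p, [] => c :: p
  | c :: p, d :: q => (c + d) :: addL p q

/-- Scalar multiple of a coefficient list. -/
def smulL (a : ℤ) : List ℤ → List ℤ
  | [] => []
  | c :: p => a * c :: smulL a p

/-- Product of coefficient lists. -/
def mulL : List ℤ → List ℤ → List ℤ
  | [], _ => []
  | c :: p, q => addL (smulL c q) (0 :: mulL p q)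

/-- Taylor shift. -/
def shiftL (a : ℤ) : List ℤ → List ℤ
  | [] => []
  | c :: p => addL [c] (mulL [a, 1] (shiftL a p))

/-- Homogenization: `x ↦ N ^ (length - 1) * p (x / N)`. -/
def homL (N : ℤ) : List ℤ → List ℤ
  | [] => []
  | c :: p => (c * N ^ p.length) :: homL N p

/-- A lower bound of the value on `[0, h]`. -/
def lbL (h : ℤ) : List ℤ → ℤ
  | [] => 0
  | c :: p => c + min 0 (h * lbL h p)

/-- Check of nonnegativity on consecutive intervals with endpoints in the list. -/
def checkL (p : List ℤ) : List ℤ → Bool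
  | a :: b :: r => decide (0 ≤ lbL (b - a) (shiftL a p)) && checkL p (b :: r)
  | _ => true

theorem evalL_addL : ∀ p q x, evalL (addL p q) x = evalL p x + evalL q x
  | [], q, x => by simp [addL, evalL]
  | c :: p, [], x => by simp [addL, evalL]
  | c :: p, d :: q, x => by
    simp only [addL, evalL, evalL_addL p q x, Int.cast_add]; ring

theorem evalL_smulL (a : ℤ) : ∀ p x, evalL (smulL a p) x = a * evalL p x
  | [], x => by simp [smulL, evalL]
  | c :: p, x => by simp only [smulL, evalL, evalL_smulL a p x, Int.cast_mul]; ring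

theorem evalL_mulL : ∀ p q x, evalL (mulL p q) x = evalL p x * evalL q x
  | [], q, x => by simp [mulL, evalL]
  | c :: p, q, x => by
    simp only [mulL, evalL, evalL_addL, evalL_smulL, evalL_mulL p q x, Int.cast_zero]; ring

theorem evalL_shiftL (a : ℤ) : ∀ p x, evalL (shiftL a p) x = evalL p (a + x)
  | [], x => rfl
  | c :: p, x => by
    simp only [shiftL, evalL_addL, evalL_mulL, evalL_shiftL a p x, evalL]
    push_cast; ring

theorem evalL_homL (N : ℤ) : ∀ p x, evalL (homL N p) (N * x) * N = (N : ℝ) ^ p.length * evalL p x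
  | [], x => by simp [homL, evalL]
  | c :: p, x => by
    simp only [homL, evalL, List.length_cons, pow_succ]
    push_cast
    linear_combination ((N : ℝ) * x) * evalL_homL N p x

theorem lbL_le {h : ℤ} {x : ℝ} (hx0 : 0 ≤ x) (hxh : x ≤ h) :
    ∀ p, (lbL h p : ℝ) ≤ evalL p x
  | [] => by simp [lbL, evalL]
  | c :: p => by
    have ih := lbL_le hx0 hxh p
    simp only [lbL, evalL, Int.cast_add, Int.cast_min, Int.cast_zero, Int.cast_mul]
    have h1 : x * (lbL h p : ℝ) ≤ x * evalL p x := mul_le_mul_of_nonneg_left ih hx0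
    rcases le_total (0 : ℝ) (lbL h p) with h2 | h2
    · linarith [min_le_left (0 : ℝ) (h * lbL h p), mul_nonneg hx0 h2]
    · linarith [min_le_right (0 : ℝ) (h * lbL h p), mul_le_mul_of_nonpos_right hxh h2]

theorem evalL_nonneg_of_check (p : List ℤ) : ∀ (r : List ℤ), checkL p r = true →
    ∀ a, r.head? = some a → ∀ b, r.getLast? = some b → ∀ x : ℝ, (a : ℝ) ≤ x → x ≤ b →
      a < b → 0 ≤ evalL p x := by
  intro r
  induction r with
  | nil => intro _ a ha; simp at ha
  | cons a' r ih =>
    intro hc a ha b hb x hax hxb hab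
    simp only [List.head?_cons, Option.some.injEq] at ha
    subst ha
    cases r with
    | nil => simp at hb; omega
    | cons a'' r =>
      simp only [checkL, Bool.and_eq_true, decide_eq_true_eq] at hc
      rw [List.getLast?_cons_cons] at hb
      by_cases h : x ≤ (a'' : ℝ)
      · have hcast : (0 : ℝ) ≤ (lbL (a'' - a') (shiftL a' p) : ℝ) := by exact_mod_cast hc.1
        have := lbL_le (h := a'' - a') (x := x - a') (by linarith) (by push_cast; linarith)
          (shiftL a' p)
        rw [evalL_shiftL, add_sub_cancel] at this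
        linarith
      · push Not at h
        refine ih hc.2 a'' rfl b hb x h.le hxb ?_
        exact_mod_cast lt_of_lt_of_le h hxb

/-- `289 |z|²` on the segment `z = -t + i (19 + 15 t) / 17`. -/
def segA : List ℤ := addL [0, 0, 289] (mulL [19, 15] [19, 15])

/-- `289 · Re z²` on the segment. -/
def segX : List ℤ := addL [0, 0, 289] (smulL (-1) (mulL [19, 15] [19, 15]))

/-- `289 · Im z²` on the segment. -/
def segY : List ℤ := smulL (-34) (mulL [0, 1] [19, 15])

/-- `289² · Re (z⁴ + 6 z² + 25)` on the segment. -/
def segU : List ℤ := addL (addL (mulL segX segX) (smulL (-1) (mulL segY segY)))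
  (addL (smulL 1734 segX) [2088025])

/-- `289² · Im (z⁴ + 6 z² + 25)` on the segment. -/
def segV : List ℤ := addL (smulL 2 (mulL segX segY)) (smulL 1734 segY)

/-- `289⁴ |z⁴ + 6 z² + 25|²` on the segment. -/
def segB : List ℤ := addL (mulL segU segU) (mulL segV segV)

/-- `289² |z² - 25|²` on the segment. -/
def segD : List ℤ := addL (mulL (addL segX [-7225]) (addL segX [-7225])) (mulL segY segY)

/-- The polynomial that certifies the maximum on the segment. -/
def segP : List ℤ := addL
  (smulL 49938349 (mulL (addL [121282044717] (smulL (-1) segD)) (mulL segD (mulL segD segD))))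
  (smulL (-1000000000000) (mulL (mulL segB segB) (mulL segA segA)))

theorem segP_check : checkL (homL 4096 segP) [0, 512, 1024, 1152, 1280, 1344, 1376, 1408, 1424,
    1432, 1440, 1444, 1446, 1448, 1450, 1452, 1456, 1472, 1536, 2048, 4096] = true := by
  decide +kernel

theorem segP_nonneg {t : ℝ} (h0 : 0 ≤ t) (h1 : t ≤ 1) : 0 ≤ evalL segP t := by
  have h : 0 ≤ evalL (homL 4096 segP) (4096 * t) :=
    evalL_nonneg_of_check _ _ segP_check 0 rfl 4096 rfl (4096 * t)
      (by push_cast; linarith) (by push_cast; linarith) (by norm_num)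
  have e := evalL_homL 4096 segP t
  push_cast at e
  have h2 : 0 ≤ (4096 : ℝ) ^ segP.length * evalL segP t := by
    rw [← e]; positivity
  exact (mul_nonneg_iff_of_pos_left (by positivity)).1 h2

end Vale.Agent.P021
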