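import Vale.Agent.P021.Defs
import Vale.Agent.P021.GrowthNum

/-!
# The size of the residue

`10 alpha n = ∑ i, [w^i] P₀ · 25^M / 25^(e-i) · g M (e-i)` where `g M j` is the coefficient of `x^j` in
`(1+x)^(M-1/2)`; it is comparable with `choose M j` for `j ≤ M` and at most `1` beyond.
-/

namespace Vale.Agent.P021

open Polynomial Filter Topology Finset

noncomputable section

/-- Coefficient of `x^k` in `(1+x)^(-1/2)`. -/
def halfC (k : ℕ) : ℝ := (-1) ^ k * (Nat.centralBinom k : ℝ) / 4 ^ k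

/-- Coefficient of `x^j` in `(1+x)^(M-1/2)`. -/
def halfG (M j : ℕ) : ℝ := ∑ k ∈ range (j + 1), (M.choose (j - k) : ℝ) * halfC k

theorem halfG_zero_right (M : ℕ) : halfG M 0 = 1 := by simp [halfG, halfC]

theorem halfG_zero_left (j : ℕ) : halfG 0 j = halfC j := by
  rw [halfG, sum_range_succ, sum_eq_zero fun k hk => ?_]
  · simp
  · have : 0 < j - k := by simp at hk; omega
    rw [Nat.choose_eq_zero_of_lt this]; simp

theorem halfG_pascal (M j : ℕ) : halfG (M + 1) (j + 1) = halfG M (j + 1) + halfG M j := by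
  simp only [halfG]
  rw [sum_range_succ _ (j + 1), sum_range_succ _ (j + 1), Nat.sub_self, Nat.choose_zero_right,
    Nat.choose_zero_right, add_right_comm, ← sum_add_distrib]
  congr 1
  refine sum_congr rfl fun k hk => ?_
  have hk' : k ≤ j := by simp at hk; omega
  rw [Nat.succ_sub hk', Nat.choose_succ_succ]
  push_cast; ring

theorem halfG_rec : ∀ M j, halfG M (j + 1) * (j + 1) = halfG M j * ((M : ℝ) - 1 / 2 - j)
  | 0, j => by
    rw [halfG_zero_left, halfG_zero_left, halfC, halfC]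
    have h : ((j : ℝ) + 1) * (Nat.centralBinom (j + 1) : ℝ) =
        2 * (2 * j + 1) * (Nat.centralBinom j : ℝ) := by
      exact_mod_cast Nat.succ_mul_centralBinom_succ j
    rw [pow_succ, pow_succ]
    field_simp
    push_cast
    linear_combination (-2 : ℝ) * h
  | M + 1, 0 => by
    have h := halfG_rec M 0
    rw [halfG_pascal]
    simp only [halfG_zero_right] at *
    push_cast at *
    linarith
  | M + 1, j + 1 => by
    have h1 := halfG_rec M (j + 1)
    have h2 := halfG_rec M j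
    rw [halfG_pascal, halfG_pascal M j]
    push_cast at *
    linear_combination h1 + h2

theorem halfG_bounds (M : ℕ) : ∀ j, j ≤ M →
    (M.choose j : ℝ) * (2 * ((M : ℝ) - j) + 1) / (2 * M + 1) ≤ halfG M j ∧
      halfG M j ≤ M.choose j
  | 0, _ => by rw [halfG_zero_right]; simp [div_self (by positivity : (2 * (M : ℝ) + 1) ≠ 0)]
  | j + 1, hj => by
    obtain ⟨hl, hu⟩ := halfG_bounds M j (by omega)
    have hjM : (j : ℝ) + 1 ≤ M := by exact_mod_cast hj
    have hc : (M.choose (j + 1) : ℝ) * ((j : ℝ) + 1) = M.choose j * ((M : ℝ) - j) := by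
      have := congrArg (Nat.cast (R := ℝ)) (Nat.choose_succ_right_eq M j)
      push_cast [Nat.cast_sub (by omega : j ≤ M)] at this
      exact this
    have hr := halfG_rec M j
    have hC : (0 : ℝ) ≤ M.choose j := Nat.cast_nonneg _
    have hpos : (0 : ℝ) < (j : ℝ) + 1 := by positivity
    have hg : 0 ≤ halfG M j := le_trans (div_nonneg (mul_nonneg hC (by linarith)) (by positivity)) hl
    rw [div_le_iff₀ (by positivity)] at hl
    refine ⟨?_, le_of_mul_le_mul_right ?_ hpos⟩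
    · rw [div_le_iff₀ (by positivity)]
      refine le_of_mul_le_mul_right ?_ hpos
      calc (M.choose (j + 1) : ℝ) * (2 * ((M : ℝ) - ((j + 1 : ℕ) : ℝ)) + 1) * ((j : ℝ) + 1)
          = M.choose j * ((M : ℝ) - j) * (2 * ((M : ℝ) - j) - 1) := by
            rw [← hc]; push_cast; ring
        _ ≤ M.choose j * (2 * ((M : ℝ) - j) + 1) * ((M : ℝ) - 1 / 2 - j) := by
            have : 0 ≤ (M.choose j : ℝ) * (2 * ((M : ℝ) - j) - 1) := mul_nonneg hC (by linarith)
            nlinarith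
        _ ≤ halfG M j * (2 * M + 1) * ((M : ℝ) - 1 / 2 - j) :=
            mul_le_mul_of_nonneg_right hl (by linarith)
        _ = halfG M (j + 1) * (2 * M + 1) * ((j : ℝ) + 1) := by
            linear_combination (-(2 * (M : ℝ) + 1)) * hr
    · rw [hr, hc]
      exact mul_le_mul hu (by linarith) (by linarith) hC

theorem abs_halfG_le_one (M : ℕ) : ∀ i, |halfG M (M + i)| ≤ 1
  | 0 => by
    obtain ⟨hl, hu⟩ := halfG_bounds M M le_rfl
    rw [Nat.choose_self, Nat.cast_one] at hl hu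
    rw [add_zero, abs_le]
    refine ⟨le_trans (by norm_num) (le_trans (div_nonneg (by norm_num) (by positivity)) hl), hu⟩
  | i + 1 => by
    have hr := halfG_rec M (M + i)
    have ih := abs_halfG_le_one M i
    rw [← add_assoc]
    have hpos : (0 : ℝ) < ((M + i : ℕ) : ℝ) + 1 := by positivity
    refine le_of_mul_le_mul_right ?_ hpos
    rw [one_mul]
    calc |halfG M (M + i + 1)| * (((M + i : ℕ) : ℝ) + 1)
        = |halfG M (M + i)| * |(M : ℝ) - 1 / 2 - ((M + i : ℕ) : ℝ)| := by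
          rw [← abs_mul, ← hr, abs_mul, abs_of_pos hpos]
      _ ≤ 1 * (((M + i : ℕ) : ℝ) + 1) := by
          refine mul_le_mul ih ?_ (abs_nonneg _) zero_le_one
          rw [abs_le]; push_cast
          constructor <;>
            linarith [(Nat.cast_nonneg i : (0 : ℝ) ≤ i), (Nat.cast_nonneg M : (0 : ℝ) ≤ M)]
      _ = _ := one_mul _

/-- `(X^2 + 56 X + 800)^N`. -/
def quadN (N : ℕ) : ℕ[X] := (X ^ 2 + (C 56 * X + C 800)) ^ N

/-- The numerator with natural coefficients. -/
def numN (N M : ℕ) : ℕ[X] := quadN N * (X + C 25) ^ M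

theorem numW_coeff (n k : ℕ) :
    (numW n).coeff k = ((numN (4000 * n) (2000 * n)).coeff k : ℚ) := by
  have h : numW n = (numN (4000 * n) (2000 * n)).map (Nat.castRingHom ℚ) := by
    simp only [numN, quadN, numW, Polynomial.map_mul, Polynomial.map_pow, Polynomial.map_add,
      Polynomial.map_X, Polynomial.map_C, add_assoc]
    simp
  rw [h, coeff_map]; rfl

theorem numN_coeff (N M l : ℕ) : ((numN N M).coeff l : ℝ) =
    ∑ i ∈ range (l + 1), ((quadN N).coeff i : ℝ) * 25 ^ M / 25 ^ (l - i) * M.choose (l - i) := by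
  rw [numN, coeff_mul, Finset.Nat.sum_antidiagonal_eq_sum_range_succ_mk, Nat.cast_sum]
  refine sum_congr rfl fun i _ => ?_
  rw [coeff_X_add_C_pow]
  rcases le_or_gt (l - i) M with h | h
  · rw [show (25 : ℝ) ^ M = 25 ^ (M - (l - i)) * 25 ^ (l - i) by rw [← pow_add, Nat.sub_add_cancel h]]
    push_cast
    field_simp
  · simp [Nat.choose_eq_zero_of_lt h]

theorem residue_sum (N M e : ℕ) :
    ∑ k ∈ range (e + 1), ((numN N M).coeff (e - k) : ℝ) * (halfC k / 25 ^ k) =
      ∑ i ∈ range (e + 1), ((quadN N).coeff i : ℝ) * 25 ^ M / 25 ^ (e - i) * halfG M (e - i) := by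
  simp only [numN_coeff, halfG, sum_mul, mul_sum]
  rw [sum_comm' (t' := range (e + 1)) (s' := fun i => range (e - i + 1))
    (fun k i => by simp only [mem_range]; omega)]
  refine sum_congr rfl fun i hi => sum_congr rfl fun k hk => ?_
  simp only [mem_range] at hi hk
  rw [show (25 : ℝ) ^ (e - i) = 25 ^ (e - k - i) * 25 ^ k by rw [← pow_add]; congr 1; omega,
    show e - i - k = e - k - i by omega]
  field_simp

theorem alpha_eq (n : ℕ) : 10 * (alpha n : ℝ) =
    ∑ i ∈ range (5999 * n + 1), ((quadN (4000 * n)).coeff i : ℝ) * 25 ^ (2000 * n) /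
      25 ^ (5999 * n - i) * halfG (2000 * n) (5999 * n - i) := by
  rw [← residue_sum, alpha, Rat.cast_sum, mul_sum]
  refine sum_congr (by rw [eM]) fun k _ => ?_
  rw [numW_coeff, eM, Nat.add_sub_cancel, halfC, Nat.centralBinom_eq_two_mul_choose,
    show (100 : ℚ) = 4 * 25 by norm_num, mul_pow]
  push_cast
  field_simp

theorem coeff_mul_pow_le_aeval (p : ℕ[X]) {x : ℝ} (hx : 0 ≤ x) (i : ℕ) :
    (p.coeff i : ℝ) * x ^ i ≤ aeval x p := by
  rw [aeval_eq_sum_range' (n := max p.natDegree i + 1) (by omega)]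
  simp only [nsmul_eq_mul]
  exact single_le_sum (f := fun j => (p.coeff j : ℝ) * x ^ j)
    (fun j _ => by positivity) (mem_range.2 (by omega))

theorem aeval_quadN (N : ℕ) (x : ℝ) : aeval x (quadN N) = (x ^ 2 + (56 * x + 800)) ^ N := by
  simp [quadN, map_ofNat]

theorem aeval_numN (N M : ℕ) (x : ℝ) :
    aeval x (numN N M) = (x ^ 2 + (56 * x + 800)) ^ N * (x + 25) ^ M := by
  simp [numN, aeval_quadN, map_ofNat]

/-- The residue lies between the main coefficient and the same divided by `2M+1`, up to the tail. -/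
theorem sum_bounds (N M e : ℕ) (T : ℝ) (hT : 2825 ^ N * 25 ^ M / 25 ^ e ≤ T) :
    ((numN N M).coeff e : ℝ) / (2 * M + 1) - (e + 1) * T ≤
      ∑ i ∈ range (e + 1), ((quadN N).coeff i : ℝ) * 25 ^ M / 25 ^ (e - i) * halfG M (e - i) ∧
    ∑ i ∈ range (e + 1), ((quadN N).coeff i : ℝ) * 25 ^ M / 25 ^ (e - i) * halfG M (e - i) ≤
      ((numN N M).coeff e : ℝ) + (e + 1) * T := by
  have hT0 : 0 ≤ T := le_trans (by positivity) hT
  have key : ∀ i ∈ range (e + 1),
      ((quadN N).coeff i : ℝ) * 25 ^ M / 25 ^ (e - i) * M.choose (e - i) / (2 * M + 1) - T ≤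
        ((quadN N).coeff i : ℝ) * 25 ^ M / 25 ^ (e - i) * halfG M (e - i) ∧
      ((quadN N).coeff i : ℝ) * 25 ^ M / 25 ^ (e - i) * halfG M (e - i) ≤
        ((quadN N).coeff i : ℝ) * 25 ^ M / 25 ^ (e - i) * M.choose (e - i) + T := by
    intro i hi
    have hie : i ≤ e := by simp at hi; omega
    have hu : (0 : ℝ) ≤ ((quadN N).coeff i : ℝ) * 25 ^ M / 25 ^ (e - i) := by positivity
    rcases le_or_gt (e - i) M with h | h
    · obtain ⟨hl, hr⟩ := halfG_bounds M (e - i) h
      refine ⟨?_, by linarith [mul_le_mul_of_nonneg_left hr hu]⟩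
      have hcast : (((e - i : ℕ) : ℝ)) ≤ M := by exact_mod_cast h
      have : (M.choose (e - i) : ℝ) / (2 * M + 1) ≤ halfG M (e - i) := by
        refine le_trans ?_ hl
        gcongr
        exact le_mul_of_one_le_right (Nat.cast_nonneg _) (by linarith)
      have := mul_le_mul_of_nonneg_left this hu
      rw [mul_div_assoc] 
      linarith
    · rw [Nat.choose_eq_zero_of_lt h, Nat.cast_zero, mul_zero, zero_div, zero_sub, zero_add]
      obtain ⟨j, hj⟩ : ∃ j, e - i = M + j := ⟨e - i - M, by omega⟩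
      have hg : |halfG M (e - i)| ≤ 1 := by rw [hj]; exact abs_halfG_le_one M j
      have hc := coeff_mul_pow_le_aeval (quadN N) (by norm_num : (0 : ℝ) ≤ 25) i
      rw [aeval_quadN, show (25 : ℝ) ^ 2 + (56 * 25 + 800) = 2825 by norm_num] at hc
      have hle : ((quadN N).coeff i : ℝ) * 25 ^ M / 25 ^ (e - i) ≤ T := by
        refine le_trans ?_ hT
        rw [show (25 : ℝ) ^ e = 25 ^ i * 25 ^ (e - i) by rw [← pow_add, Nat.add_sub_cancel' hie],
          le_div_iff₀ (by positivity), div_mul_eq_mul_div, div_le_iff₀ (by positivity)]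
        calc ((quadN N).coeff i : ℝ) * 25 ^ M * (25 ^ i * 25 ^ (e - i))
            = ((quadN N).coeff i : ℝ) * 25 ^ i * (25 ^ M * 25 ^ (e - i)) := by ring
          _ ≤ 2825 ^ N * (25 ^ M * 25 ^ (e - i)) := mul_le_mul_of_nonneg_right hc (by positivity)
          _ = _ := by ring
      have := mul_le_mul hle hg (abs_nonneg _) hT0
      rw [mul_one, ← abs_of_nonneg hu, ← abs_mul] at this
      exact abs_le.1 this
  constructor
  · have h := sum_le_sum fun i hi => (key i hi).1
    rw [sum_sub_distrib, ← sum_div, ← numN_coeff, sum_const, card_range, nsmul_eq_mul] at h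
    push_cast at h; exact h
  · have h := sum_le_sum fun i hi => (key i hi).2
    rw [sum_add_distrib, ← numN_coeff, sum_const, card_range, nsmul_eq_mul] at h
    push_cast at h; exact h

theorem binom_mode {N k : ℕ} (_hk : 0 < k) (hkN : k < N) :
    N ^ N ≤ (N + 1) * N.choose k * k ^ k * (N - k) ^ (N - k) := by
  set t : ℕ → ℕ := fun i => k ^ i * (N - k) ^ (N - i) * N.choose i with ht
  have hstep : ∀ i < N, t (i + 1) * ((i + 1) * (N - k)) = t i * ((N - i) * k) := by
    intro i hi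
    simp only [ht]
    rw [show N - i = N - (i + 1) + 1 by omega, pow_succ, pow_succ]
    calc _ = k ^ i * k * (N - k) ^ (N - (i + 1)) * (N - k) * (N.choose (i + 1) * (i + 1)) := by ring
      _ = k ^ i * k * (N - k) ^ (N - (i + 1)) * (N - k) * (N.choose i * (N - i)) := by
          rw [Nat.choose_succ_right_eq]
      _ = _ := by rw [show N - i = N - (i + 1) + 1 by omega]; ring
  have hup : ∀ i < k, t i ≤ t (i + 1) := by
    intro i hi
    refine Nat.le_of_mul_le_mul_right ?_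
      (Nat.mul_pos (Nat.succ_pos i) (by omega) : 0 < (i + 1) * (N - k))
    rw [hstep i (by omega)]
    refine Nat.mul_le_mul_left _ ?_
    rw [Nat.mul_comm (N - i) k]
    exact Nat.mul_le_mul (by omega) (by omega)
  have hdown : ∀ i, k ≤ i → i < N → t (i + 1) ≤ t i := by
    intro i hi hiN
    refine Nat.le_of_mul_le_mul_right ?_
      (Nat.mul_pos (Nat.succ_pos i) (by omega) : 0 < (i + 1) * (N - k))
    rw [hstep i hiN]
    refine Nat.mul_le_mul_left _ ?_
    rw [Nat.mul_comm (N - i) k]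
    exact Nat.mul_le_mul (by omega) (by omega)
  have hall : ∀ i ≤ N, t i ≤ t k := by
    intro i hi
    rcases le_total i k with h | h
    · exact Nat.decreasingInduction (motive := fun j _ => t j ≤ t k)
        (fun j hj ih => (hup j hj).trans ih) le_rfl h
    · induction i, h using Nat.le_induction with
      | base => exact le_rfl
      | succ j hj ih => exact (hdown j hj (by omega)).trans (ih (by omega))
  calc N ^ N = ∑ i ∈ range (N + 1), t i := by
        have h := add_pow k (N - k) N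
        rw [Nat.add_sub_cancel' hkN.le] at h
        rw [h]; exact sum_congr rfl fun i _ => by simp [ht]
    _ ≤ ∑ _i ∈ range (N + 1), t k := sum_le_sum fun i hi => hall i (by simp at hi; omega)
    _ = _ := by simp [ht]; ring

theorem binom_mode_scaled {a b : ℕ} (ha : 0 < a) (hab : a < b) {n : ℕ} (hn : 0 < n) :
    (b ^ b) ^ n ≤ (b * n + 1) * (b * n).choose (a * n) * (a ^ a * (b - a) ^ (b - a)) ^ n := by
  have h := binom_mode (Nat.mul_pos ha hn) (Nat.mul_lt_mul_of_pos_right hab hn)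
  rw [← Nat.sub_mul, mul_pow, mul_pow, mul_pow,
    show n ^ (b * n) = n ^ (a * n) * n ^ ((b - a) * n) by
      rw [← pow_add, ← add_mul, Nat.add_sub_cancel' hab.le]] at h
  refine Nat.le_of_mul_le_mul_right ?_
    (by positivity : 0 < n ^ (a * n) * n ^ ((b - a) * n))
  refine le_trans (le_of_eq ?_) (h.trans (le_of_eq ?_))
  · rw [← pow_mul]
  · rw [mul_pow, ← pow_mul, ← pow_mul]; ring

theorem numN_coeff_ge (N M a b j : ℕ) (hab : a + b ≤ N) :
    N.choose a * ((N - a).choose b * 56 ^ b * 800 ^ (N - a - b)) * (25 ^ (M - j) * M.choose j) ≤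
      (numN N M).coeff (2 * a + b + j) := by
  have h2 : (N - a).choose b * 56 ^ b * 800 ^ (N - a - b) ≤
      ((C 56 * X + C 800 : ℕ[X]) ^ (N - a)).coeff b := by
    rw [add_pow, finsetSum_coeff]
    refine le_trans (le_of_eq ?_) (single_le_sum
      (f := fun m => ((C 56 * X : ℕ[X]) ^ m * C 800 ^ (N - a - m) * ((N - a).choose m : ℕ[X])).coeff b)
      (fun _ _ => Nat.zero_le _) (mem_range.2 (by omega : b < N - a + 1)))
    simp only [mul_pow, ← C_pow, ← C_eq_natCast]
    rw [coeff_mul_C, coeff_mul_C, coeff_C_mul, coeff_X_pow_self]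
    simp only [Nat.cast_id]
    ring
  have h1 : N.choose a * ((C 56 * X + C 800 : ℕ[X]) ^ (N - a)).coeff b ≤
      (quadN N).coeff (2 * a + b) := by
    conv_rhs => rw [quadN, add_pow, finsetSum_coeff]
    refine le_trans (le_of_eq ?_) (single_le_sum
      (f := fun m => ((X ^ 2 : ℕ[X]) ^ m * (C 56 * X + C 800) ^ (N - m) *
        (N.choose m : ℕ[X])).coeff (2 * a + b))
      (fun _ _ => Nat.zero_le _) (mem_range.2 (by omega : a < N + 1)))
    rw [← C_eq_natCast, coeff_mul_C, ← pow_mul, Nat.add_comm (2 * a) b, coeff_X_pow_mul]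
    exact Nat.mul_comm _ _
  rw [numN, coeff_mul]
  refine le_trans ?_ (single_le_sum (fun _ _ => Nat.zero_le _)
    (mem_antidiagonal.2 rfl : (2 * a + b, j) ∈ antidiagonal (2 * a + b + j)))
  rw [coeff_X_add_C_pow]
  exact Nat.mul_le_mul_right _ (le_trans (Nat.mul_le_mul_left _ h2) h1)

theorem pow_le_exp_of_cert {A B k m : ℕ} (hm : m ≠ 0) (h : A ^ m ≤ 2 ^ k * B ^ m) {c : ℝ}
    (hc : k * Real.log 2 ≤ m * c) (n : ℕ) : ((A : ℝ)) ^ n ≤ Real.exp (c * n) * (B : ℝ) ^ n := by
  have h1 : (A : ℝ) ^ m ≤ 2 ^ k * (B : ℝ) ^ m := by exact_mod_cast h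
  have h2 : (2 : ℝ) ^ k ≤ Real.exp c ^ m := by
    rw [← Real.exp_nat_mul, ← Real.exp_log (by norm_num : (0 : ℝ) < 2), ← Real.exp_nat_mul]
    exact Real.exp_le_exp.2 hc
  have h3 : (A : ℝ) ≤ Real.exp c * B := by
    refine le_of_pow_le_pow_left₀ hm (by positivity) (h1.trans ?_)
    rw [mul_pow]
    exact mul_le_mul_of_nonneg_right h2 (by positivity)
  calc (A : ℝ) ^ n ≤ (Real.exp c * B) ^ n := by gcongr
    _ = _ := by rw [mul_pow, ← Real.exp_nat_mul, mul_comm (n : ℝ)]

theorem exp_le_pow_of_cert {A B k m : ℕ} (hm : m ≠ 0) (h : 2 ^ k * B ^ m ≤ A ^ m) {c : ℝ}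
    (hc : m * c ≤ k * Real.log 2) (n : ℕ) : Real.exp (c * n) * (B : ℝ) ^ n ≤ (A : ℝ) ^ n := by
  have h1 : (2 : ℝ) ^ k * (B : ℝ) ^ m ≤ (A : ℝ) ^ m := by exact_mod_cast h
  have h2 : Real.exp c ^ m ≤ (2 : ℝ) ^ k := by
    rw [← Real.exp_nat_mul, ← Real.exp_log (by norm_num : (0 : ℝ) < 2), ← Real.exp_nat_mul]
    exact Real.exp_le_exp.2 hc
  have h3 : Real.exp c * B ≤ (A : ℝ) := by
    refine le_of_pow_le_pow_left₀ hm (by positivity) (le_trans ?_ h1)
    rw [mul_pow]
    exact mul_le_mul_of_nonneg_right h2 (by positivity)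
  calc _ = (Real.exp c * B) ^ n := by rw [mul_pow, ← Real.exp_nat_mul, mul_comm (n : ℝ)]
    _ ≤ (A : ℝ) ^ n := by gcongr

theorem eventually_poly_le_exp (C : ℝ) (j : ℕ) {δ : ℝ} (hδ : 0 < δ) :
    ∀ᶠ n : ℕ in atTop, C * (n : ℝ) ^ j ≤ Real.exp (δ * n) := by
  filter_upwards [(tendsto_natCast_atTop_atTop (R := ℝ)).eventually_ge_atTop
    (C * (j + 1).factorial / δ ^ (j + 1))] with n hn
  refine le_trans ?_ (Real.pow_div_factorial_le_exp (δ * n) (by positivity) (j + 1))
  rw [div_le_iff₀ (by positivity)] at hn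
  rw [le_div_iff₀ (by positivity), mul_pow, pow_succ (n : ℝ) j]
  have : (0 : ℝ) ≤ (n : ℝ) ^ j := by positivity
  nlinarith

theorem combine_lower {n R c1 c2 c3 f1 f2 f3 p1 p2 p3 q1 q2 q3 q4 q5 s1 s2 s3 : ℕ} (hp2 : 0 < p2)
    (b1 : p1 ^ n ≤ f1 * c1 * (q1 * p2) ^ n) (b2 : p2 ^ n ≤ f2 * c2 * (q2 * q3) ^ n)
    (b3 : p3 ^ n ≤ f3 * c3 * (q4 * q5) ^ n) (hc : c1 * (c2 * s1 ^ n * s2 ^ n) * (s3 ^ n * c3) ≤ R) :
    (p1 * p3 * s1 * s2 * s3) ^ n ≤ R * (f1 * f2 * f3) * (q1 * q2 * q3 * q4 * q5) ^ n := by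
  refine Nat.le_of_mul_le_mul_right (?_ : _ * p2 ^ n ≤ _ * p2 ^ n) (pow_pos hp2 n)
  have h := Nat.mul_le_mul (Nat.mul_le_mul b1 b2) b3
  calc (p1 * p3 * s1 * s2 * s3) ^ n * p2 ^ n
      = p1 ^ n * p2 ^ n * p3 ^ n * (s1 ^ n * s2 ^ n * s3 ^ n) := by ring
    _ ≤ f1 * c1 * (q1 * p2) ^ n * (f2 * c2 * (q2 * q3) ^ n) * (f3 * c3 * (q4 * q5) ^ n) *
          (s1 ^ n * s2 ^ n * s3 ^ n) := Nat.mul_le_mul_right _ h
    _ = c1 * (c2 * s1 ^ n * s2 ^ n) * (s3 ^ n * c3) * (f1 * f2 * f3) *
          (q1 * q2 * q3 * q4 * q5) ^ n * p2 ^ n := by ring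
    _ ≤ _ := by gcongr

theorem coeff_lower {n : ℕ} (hn : 0 < n) : Real.exp (19987.786 * n) ≤
    ((numN (4000 * n) (2000 * n)).coeff (5999 * n) : ℝ) *
      ((4000 * n + 1) * (2583 * n + 1) * (2000 * n + 1) : ℕ) := by
  have hc := numN_coeff_ge (4000 * n) (2000 * n) (1417 * n) (1919 * n) (1246 * n) (by omega)
  rw [show 2 * (1417 * n) + 1919 * n + 1246 * n = 5999 * n by omega,
    show 4000 * n - 1417 * n = 2583 * n by omega, show 2583 * n - 1919 * n = 664 * n by omega,
    show 2000 * n - 1246 * n = 754 * n by omega] at hc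
  have b1 := binom_mode_scaled (a := 1417) (b := 4000) (by norm_num) (by norm_num) hn
  have b2 := binom_mode_scaled (a := 1919) (b := 2583) (by norm_num) (by norm_num) hn
  have b3 := binom_mode_scaled (a := 1246) (b := 2000) (by norm_num) (by norm_num) hn
  rw [show 4000 - 1417 = 2583 by norm_num] at b1
  rw [show 2583 - 1919 = 664 by norm_num] at b2
  rw [show 2000 - 1246 = 754 by norm_num] at b3
  have hb := exp_le_pow_of_cert (c := 19987.786) (by norm_num) res_lo_cert
    (by have := Real.log_two_gt_d9; norm_num; linarith) n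
  have key : (4000 ^ 4000 * 2000 ^ 2000 * 56 ^ 1919 * 800 ^ 664 * 25 ^ 754) ^ n ≤
      (numN (4000 * n) (2000 * n)).coeff (5999 * n) *
        ((4000 * n + 1) * (2583 * n + 1) * (2000 * n + 1)) *
        (1417 ^ 1417 * 1919 ^ 1919 * 664 ^ 664 * 1246 ^ 1246 * 754 ^ 754) ^ n := by
    rw [pow_mul 56, pow_mul 800, pow_mul 25] at hc
    have hp2 : 0 < (2583 : ℕ) ^ 2583 := Nat.pow_pos (by norm_num)
    exact combine_lower hp2 b1 b2 b3 hc
  revert hb key
  generalize (4000 : ℕ) ^ 4000 * 2000 ^ 2000 * 56 ^ 1919 * 800 ^ 664 * 25 ^ 754 = A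
  have hBp : 0 < (1417 : ℕ) ^ 1417 * 1919 ^ 1919 * 664 ^ 664 * 1246 ^ 1246 * 754 ^ 754 :=
    Nat.mul_pos (Nat.mul_pos (Nat.mul_pos (Nat.mul_pos (Nat.pow_pos (by norm_num))
      (Nat.pow_pos (by norm_num))) (Nat.pow_pos (by norm_num))) (Nat.pow_pos (by norm_num)))
      (Nat.pow_pos (by norm_num))
  revert hBp
  generalize (1417 : ℕ) ^ 1417 * 1919 ^ 1919 * 664 ^ 664 * 1246 ^ 1246 * 754 ^ 754 = B
  intro hBp hb key
  refine le_of_mul_le_mul_right (hb.trans ?_) (pow_pos (Nat.cast_pos.2 hBp) n)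
  exact_mod_cast key

theorem upper_aux {A a b p q : ℝ} {s t u r n : ℕ} (hq : 0 < q) (hs : 2 * s + t = u + r)
    (h : A * (p / q) ^ (u * n) ≤ (a / q ^ 2) ^ (s * n) * (b / q) ^ (t * n)) :
    A * (p ^ u * q ^ r) ^ n ≤ (a ^ s * b ^ t) ^ n := by
  have hs' : q ^ (2 * (s * n)) * q ^ (t * n) = q ^ (u * n) * q ^ (r * n) := by
    rw [← pow_add, ← pow_add, ← add_mul, ← hs]; congr 1; ring
  rw [div_pow, div_pow, div_pow, ← pow_mul q 2, div_mul_div_comm, hs', mul_div_assoc',
    div_le_div_iff₀ (by positivity) (by positivity)] at h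
  refine le_of_mul_le_mul_right ?_ (pow_pos hq (u * n))
  rw [mul_pow, mul_pow, ← pow_mul, ← pow_mul, ← pow_mul, ← pow_mul]
  linarith

theorem coeff_upper (n : ℕ) :
    ((numN (4000 * n) (2000 * n)).coeff (5999 * n) : ℝ) ≤ Real.exp (19987.7932 * n) := by
  have h := coeff_mul_pow_le_aeval (numN (4000 * n) (2000 * n))
    (by norm_num : (0 : ℝ) ≤ 124 / 3) (5999 * n)
  rw [aeval_numN, show ((124 : ℝ) / 3) ^ 2 + (56 * (124 / 3) + 800) = 43408 / 3 ^ 2 by norm_num,
    show (124 : ℝ) / 3 + 25 = 199 / 3 by norm_num] at h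
  have h' := upper_aux (r := 4001) (by norm_num) (by norm_num) h
  have hb := pow_le_exp_of_cert (c := 19987.7932) (by norm_num) res_up_cert
    (by have := Real.log_two_lt_d9; norm_num; linarith) n
  simp only [Nat.cast_mul, Nat.cast_pow, Nat.cast_ofNat] at hb
  exact le_of_mul_le_mul_right (h'.trans hb)
    (pow_pos (mul_pos (pow_pos (by norm_num) _) (pow_pos (by norm_num) _)) n)

theorem tail_bound (n : ℕ) :
    (2825 : ℝ) ^ (4000 * n) * 25 ^ (2000 * n) / 25 ^ (5999 * n) ≤ Real.exp (18914 * n) := by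
  have hb := pow_le_exp_of_cert (m := 1) (c := 18914) (A := 2825 ^ 4000) (B := 25 ^ 3999)
    one_ne_zero (by simpa only [pow_one] using res_tail_cert)
    (by have := Real.log_two_lt_d9; norm_num; linarith) n
  simp only [Nat.cast_pow, Nat.cast_ofNat] at hb
  rw [show 5999 * n = 3999 * n + 2000 * n by ring, pow_add, mul_div_mul_right _ _ (by positivity),
    div_le_iff₀ (by positivity), pow_mul, pow_mul]
  exact hb

/-- The size of the residue. -/
theorem residueBound : ResidueBoundStmt := by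
  filter_upwards [eventually_poly_le_exp (10001 ^ 4 * 10011) 5 (δ := 0.006) (by norm_num),
    eventually_poly_le_exp 6001 1 (δ := 0.0018) (by norm_num), eventually_gt_atTop 0]
    with n h1 h2 hn
  obtain ⟨hl, hu⟩ := sum_bounds (4000 * n) (2000 * n) (5999 * n) _ (tail_bound n)
  rw [← alpha_eq] at hl hu
  have hA := coeff_upper n
  have hAl := coeff_lower hn
  set A := ((numN (4000 * n) (2000 * n)).coeff (5999 * n) : ℝ)
  push_cast at hl hu hAl
  have hA0 : 0 ≤ A := Nat.cast_nonneg _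
  have hn1 : (1 : ℝ) ≤ n := by exact_mod_cast hn
  have e1 : Real.exp (18914 * (n : ℝ)) ≤ Real.exp (19987.78 * n) :=
    Real.exp_le_exp.2 (by nlinarith)
  have e2 : Real.exp (19987.786 * (n : ℝ)) = Real.exp (0.006 * n) * Real.exp (19987.78 * n) := by
    rw [← Real.exp_add]; ring_nf
  have e3 : Real.exp (19987.795 * (n : ℝ)) = Real.exp (0.0018 * n) * Real.exp (19987.7932 * n) := by
    rw [← Real.exp_add]; ring_nf
  have e4 : Real.exp (19987.78 * (n : ℝ)) ≤ Real.exp (19987.7932 * n) :=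
    Real.exp_le_exp.2 (by nlinarith)
  set E := Real.exp (19987.78 * (n : ℝ)) with hE
  have hE0 : 0 < E := Real.exp_pos _
  have p1 : (4000 * (n : ℝ) + 1) * (2583 * n + 1) * (2000 * n + 1) ≤ (10001 * n) ^ 3 := by
    rw [show (10001 * (n : ℝ)) ^ 3 = 10001 * n * (10001 * n) * (10001 * n) by ring]
    gcongr <;> linarith
  have hmain : E * (10011 * n) ≤ A / (2 * (2000 * n) + 1) := by
    rw [le_div_iff₀ (by positivity)]
    refine le_of_mul_le_mul_right ?_ (by positivity : (0 : ℝ) < (10001 * n) ^ 3)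
    calc E * (10011 * n) * (2 * (2000 * n) + 1) * (10001 * n) ^ 3
        ≤ E * (10011 * n) * (10001 * n) * (10001 * n) ^ 3 := by gcongr; linarith
      _ = E * (10001 ^ 4 * 10011 * (n : ℝ) ^ 5) := by ring
      _ ≤ E * Real.exp (0.006 * n) := by gcongr
      _ ≤ A * ((4000 * (n : ℝ) + 1) * (2583 * n + 1) * (2000 * n + 1)) := by
          rw [mul_comm E, ← e2]; exact hAl
      _ ≤ A * (10001 * n) ^ 3 := by gcongr
  have hlow : 10 * E ≤ 10 * (alpha n : ℝ) := by
    have := mul_le_mul_of_nonneg_left e1 (by positivity : (0 : ℝ) ≤ 5999 * (n : ℝ) + 1)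
    nlinarith
  have hpos : (0 : ℝ) < alpha n := by linarith
  rw [abs_of_pos hpos]
  refine ⟨by linarith, ?_⟩
  rw [e3]
  have := mul_le_mul_of_nonneg_left (e1.trans e4) (by positivity : (0 : ℝ) ≤ 5999 * (n : ℝ) + 1)
  have h3 := mul_le_mul_of_nonneg_right h2 (Real.exp_pos (19987.7932 * (n : ℝ))).le
  rw [pow_one] at h3
  nlinarith [Real.exp_pos (19987.7932 * (n : ℝ))]

end

end Vale.Agent.P021
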