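import Vale.Agent.P021.GrowthIntegral
import Vale.Agent.P021.GrowthResidue

/-!
# The growth module

`Vale.Agent.P021.integralBound : IntegralBoundStmt` is proved in `GrowthIntegral`, and
`Vale.Agent.P021.residueBound : ResidueBoundStmt` in `GrowthResidue`; this file bundles both.
-/

namespace Vale.Agent.P021

/-- Both bounds of the growth module. -/
theorem growth : IntegralBoundStmt ∧ ResidueBoundStmt := ⟨integralBound, residueBound⟩

end Vale.Agent.P021
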