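import Vale.Agent.P021.Defs
import Vale.Agent.P021.GrowthNum

/-!
# The bound for the integral

`R n` has a primitive on the disk `|z| < 5`, so the integral is bounded by the maximum of `|R n|`
on the polygonal path `-1-2i, -19i/17, 19i/17, -1+2i`.
-/

namespace Vale.Agent.P021

open Filter Topology Metric

noncomputable section

theorem sq_sub_ne_zero {z : ℂ} (hz : z ∈ ball (0 : ℂ) 5) : z ^ 2 - 25 ≠ 0 := by
  intro h
  rw [mem_ball_zero_iff] at hz
  have h2 : ‖z‖ ^ 2 = 25 := by rw [← norm_pow, sub_eq_zero.1 h]; simp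
  nlinarith [norm_nonneg z]

theorem differentiableOn_R (n : ℕ) : DifferentiableOn ℂ (R n) (ball 0 5) := by
  intro z hz
  refine DifferentiableAt.differentiableWithinAt ?_
  unfold R
  exact DifferentiableAt.div (by fun_prop) (by fun_prop) (pow_ne_zero _ (sq_sub_ne_zero hz))

/-- The per-unit factor of `R n`. -/
def phi (z : ℂ) : ℝ :=
  ‖z ^ 4 + 6 * z ^ 2 + 25‖ ^ 4000 * ‖z‖ ^ 4000 / ‖z ^ 2 - 25‖ ^ 5999

theorem norm_R_le {n : ℕ} {z : ℂ} (h1 : 1 ≤ ‖z ^ 2 - 25‖) {c : ℝ}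
    (h : phi z ≤ Real.exp c) : ‖R n z‖ ≤ Real.exp (c * n) := by
  have e : ‖R n z‖ = phi z ^ n / ‖z ^ 2 - 25‖ := by
    simp only [R, phi, eA, eM, norm_div, norm_mul, norm_pow]
    rw [div_pow, mul_pow, ← pow_mul, ← pow_mul, ← pow_mul, pow_succ ‖z ^ 2 - 25‖ (5999 * n), div_div]
  have hp : 0 ≤ phi z := by unfold phi; positivity
  rw [e]
  refine (div_le_self (pow_nonneg hp n) h1).trans ?_
  refine (pow_le_pow_left₀ hp h n).trans (le_of_eq ?_)
  rw [← Real.exp_nat_mul, mul_comm]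

theorem R_conj (n : ℕ) (z : ℂ) : R n (starRingEnd ℂ z) = starRingEnd ℂ (R n z) := by
  simp [R, map_div₀, map_pow, map_mul, map_add, map_sub, map_ofNat]

theorem axis_poly {u : ℝ} (h0 : 0 ≤ u) (h1 : u ≤ 361 / 289) :
    (u ^ 2 - 6 * u + 25) ^ 2 * u ≤ 28 / 1000 * (u + 25) ^ 3 := by
  nlinarith [mul_nonneg h0 (sub_nonneg.2 h1), mul_nonneg (mul_nonneg h0 h0) (sub_nonneg.2 h1),
    mul_nonneg h0 (sq_nonneg (u - 361 / 289)), mul_nonneg (mul_nonneg h0 h0) (sq_nonneg (u - 361 / 289)),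
    sub_nonneg.2 h1]

theorem one_le_norm_sq_sub {z : ℂ} (h : z.re ^ 2 + 1 ≤ 25) : 1 ≤ ‖z ^ 2 - 25‖ := by
  refine le_trans ?_ (Complex.abs_re_le_norm _)
  have e : (z ^ 2 - 25).re = z.re ^ 2 - z.im ^ 2 - 25 := by simp [pow_two]
  rw [e]
  refine le_trans ?_ (neg_le_abs _)
  nlinarith [sq_nonneg z.im]

theorem phi_sq (z : ℂ) : phi z ^ 2 =
    (Complex.normSq (z ^ 4 + 6 * z ^ 2 + 25) ^ 2 * Complex.normSq z ^ 2 /
      Complex.normSq (z ^ 2 - 25) ^ 3) ^ 2000 * Complex.normSq (z ^ 2 - 25) := by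
  simp only [Complex.normSq_eq_norm_sq, phi]
  have key : ∀ a b c : ℝ, ∀ m : ℕ, (a ^ (2 * m) * b ^ (2 * m) / c ^ (3 * m - 1)) ^ 2 =
      ((a ^ 2) ^ 2 * (b ^ 2) ^ 2 / (c ^ 2) ^ 3) ^ m * c ^ 2 ∨ c = 0 ∨ m = 0 := by
    intro a b c m
    rcases eq_or_ne c 0 with hc | hc
    · exact Or.inr (Or.inl hc)
    rcases Nat.eq_zero_or_pos m with hm | hm
    · exact Or.inr (Or.inr hm)
    left
    obtain ⟨j, rfl⟩ : ∃ j, m = j + 1 := ⟨m - 1, by omega⟩
    rw [show 3 * (j + 1) - 1 = 3 * j + 2 by omega]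
    rw [div_pow, div_pow, mul_pow, mul_pow, ← pow_mul, ← pow_mul, ← pow_mul, ← pow_mul,
      ← pow_mul, ← pow_mul, ← pow_mul, ← pow_mul, div_mul_eq_mul_div, ← pow_mul c 2,
      div_eq_div_iff (pow_ne_zero _ hc) (pow_ne_zero _ hc)]
    ring
  rcases key ‖z ^ 4 + 6 * z ^ 2 + 25‖ ‖z‖ ‖z ^ 2 - 25‖ 2000 with h | h | h
  · exact h
  · rw [h, zero_pow (by norm_num : (5999 : ℕ) ≠ 0), div_zero, zero_pow (by norm_num : (2 : ℕ) ≠ 0),
      mul_zero]
  · norm_num at h

theorem exp_of_sq_le {x c : ℝ} (h : x ^ 2 ≤ Real.exp (2 * c)) : x ≤ Real.exp c := by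
  have e : Real.exp (2 * c) = Real.exp c ^ 2 := by rw [← Real.exp_nat_mul]; norm_num
  rw [e] at h
  nlinarith [Real.exp_pos c]

theorem phi_axis {y : ℝ} (hy : |y| ≤ 19 / 17) :
    phi ((y : ℂ) * Complex.I) ≤ Real.exp (-7046.2455) := by
  refine exp_of_sq_le ?_
  have hu : y ^ 2 ≤ 361 / 289 := by
    have := sq_le_sq' (abs_le.1 hy).1 (abs_le.1 hy).2
    norm_num at this ⊢; linarith
  have e1 : Complex.normSq (((y : ℂ) * Complex.I) ^ 4 + 6 * ((y : ℂ) * Complex.I) ^ 2 + 25) =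
      ((y ^ 2) ^ 2 - 6 * y ^ 2 + 25) ^ 2 := by
    have : ((y : ℂ) * Complex.I) ^ 4 + 6 * ((y : ℂ) * Complex.I) ^ 2 + 25 =
        (((y ^ 2) ^ 2 - 6 * y ^ 2 + 25 : ℝ) : ℂ) := by
      rw [mul_pow, mul_pow, Complex.I_pow_four, Complex.I_sq]; push_cast; ring
    rw [this, Complex.normSq_ofReal]; ring
  have e2 : Complex.normSq ((y : ℂ) * Complex.I) = y ^ 2 := by
    simp [Complex.normSq_ofReal]; ring
  have e3 : Complex.normSq (((y : ℂ) * Complex.I) ^ 2 - 25) = (y ^ 2 + 25) ^ 2 := by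
    have : ((y : ℂ) * Complex.I) ^ 2 - 25 = ((-(y ^ 2 + 25) : ℝ) : ℂ) := by
      rw [mul_pow, Complex.I_sq]; push_cast; ring
    rw [this, Complex.normSq_ofReal]; ring
  rw [phi_sq, e1, e2, e3]
  have hp := axis_poly (sq_nonneg y) hu
  have h0 := sq_nonneg y
  generalize y ^ 2 = u at hp hu h0 ⊢
  have hq : ((u ^ 2 - 6 * u + 25) ^ 2) ^ 2 * u ^ 2 / ((u + 25) ^ 2) ^ 3 ≤ (28 / 1000) ^ 2 := by
    rw [div_le_iff₀ (by positivity)]
    calc ((u ^ 2 - 6 * u + 25) ^ 2) ^ 2 * u ^ 2 = ((u ^ 2 - 6 * u + 25) ^ 2 * u) ^ 2 := by ring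
      _ ≤ (28 / 1000 * (u + 25) ^ 3) ^ 2 := by gcongr
      _ = _ := by ring
  have hk : (((28 : ℝ) / 1000) ^ 2) ≤ Real.exp (-7.056) := by
    rw [Real.exp_neg, le_inv_comm₀ (by positivity) (Real.exp_pos _)]
    have h7 : Real.exp (7.056 : ℝ) = Real.exp 1 ^ 7 * Real.exp 0.056 := by
      rw [← Real.exp_nat_mul, ← Real.exp_add]; norm_num
    have hb : Real.exp (0.056 : ℝ) ≤ 1.06 := by
      have := Real.exp_bound_div_one_sub_of_interval (x := (0.056 : ℝ)) (by norm_num) (by norm_num)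
      nlinarith
    rw [h7]
    calc Real.exp 1 ^ 7 * Real.exp 0.056 ≤ 2.7182818286 ^ 7 * 1.06 := by
          gcongr; exact Real.exp_one_lt_d9.le
      _ ≤ _ := by norm_num
  calc _ ≤ Real.exp (-7.056) ^ 2000 * (u + 25) ^ 2 := by
        refine mul_le_mul_of_nonneg_right (pow_le_pow_left₀ (by positivity) (hq.trans hk) _)
          (sq_nonneg _)
    _ ≤ Real.exp (-7.056) ^ 2000 * Real.exp 7 := by
        refine mul_le_mul_of_nonneg_left ?_ (by positivity)
        refine le_trans ?_ (pow_le_pow_left₀ (by norm_num) Real.exp_one_gt_d9.le 7 |>.trans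
          (le_of_eq (by rw [← Real.exp_nat_mul]; norm_num)))
        nlinarith
    _ ≤ _ := by
        rw [← Real.exp_nat_mul, ← Real.exp_add]
        exact Real.exp_le_exp.2 (by norm_num)

theorem pow_le_exp_cert {A B k m : ℕ} (hm : m ≠ 0) (h : A ^ m * 2 ^ k ≤ B ^ m) (hB : 0 < B)
    {c : ℝ} (hc : -(k * Real.log 2) ≤ m * c) : (A : ℝ) / B ≤ Real.exp c := by
  have h1 : (A : ℝ) ^ m * 2 ^ k ≤ (B : ℝ) ^ m := by exact_mod_cast h
  have hB' : (0 : ℝ) < B := by exact_mod_cast hB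
  refine le_of_pow_le_pow_left₀ hm (Real.exp_pos _).le ?_
  rw [div_pow, ← Real.exp_nat_mul]
  refine le_trans ?_ (Real.exp_le_exp.2 hc)
  rw [Real.exp_neg, Real.exp_nat_mul, Real.exp_log (by norm_num), div_le_iff₀ (by positivity),
    ← div_eq_inv_mul, le_div_iff₀ (by positivity)]
  exact h1

theorem seg_values (t : ℝ) :
    let z : ℂ := (-t : ℝ) + (((19 + 15 * t) / 17 : ℝ) : ℂ) * Complex.I
    Complex.normSq z = evalL segA t / 289 ∧
      Complex.normSq (z ^ 4 + 6 * z ^ 2 + 25) = evalL segB t / 289 ^ 4 ∧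
      Complex.normSq (z ^ 2 - 25) = evalL segD t / 289 ^ 2 := by
  intro z
  have hre : z.re = -t := by simp [z]
  have him : z.im = (19 + 15 * t) / 17 := by simp [z]
  have hz2r : (z ^ 2).re = evalL segX t / 289 := by
    simp only [pow_two, Complex.mul_re, hre, him, segX, evalL_addL, evalL_smulL, evalL_mulL, evalL]
    push_cast; ring
  have hz2i : (z ^ 2).im = evalL segY t / 289 := by
    simp only [pow_two, Complex.mul_im, hre, him, segY, evalL_smulL, evalL_mulL, evalL]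
    push_cast; ring
  refine ⟨?_, ?_, ?_⟩
  · simp only [Complex.normSq_apply, hre, him, segA, evalL_addL, evalL_mulL, evalL]
    push_cast; ring
  · rw [show z ^ 4 = (z ^ 2) ^ 2 by ring, Complex.normSq_apply]
    generalize z ^ 2 = w at hz2r hz2i ⊢
    simp only [pow_two w, Complex.add_re, Complex.add_im, Complex.mul_re, Complex.mul_im,
      Complex.re_ofNat, Complex.im_ofNat, hz2r, hz2i, segB, segU, segV, evalL_addL, evalL_smulL,
      evalL_mulL, evalL]
    push_cast; ring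
  · rw [Complex.normSq_apply]
    simp only [Complex.sub_re, Complex.sub_im, Complex.re_ofNat, Complex.im_ofNat, hz2r, hz2i, segD,
      evalL_addL, evalL_mulL, evalL]
    push_cast; ring

theorem seg_aux {P Q D K L d : ℝ} {m : ℕ} (hm : 0 < m) (hD : 0 < D) (hQ : 0 < Q) (hL : 0 < L)
    (hK : 0 < K) (hd : 0 < d) (hP : 0 ≤ P)
    (h : 0 ≤ K * (((m + 1) * d - D) * D ^ 3) - L * P) :
    (P / (D ^ 3 * Q ^ 4)) ^ m * (D / Q ^ 2) ≤ (K * m * d) ^ m * d / ((L * Q ^ 4) ^ m * Q ^ 2) := by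
  have hm' : (0 : ℝ) < m := by exact_mod_cast hm
  have hy : 0 ≤ (m + 1) * d - D := by
    have : 0 ≤ ((m + 1) * d - D) * (K * D ^ 3) := by nlinarith
    exact (mul_nonneg_iff_of_pos_right (by positivity)).1 this
  have h1 : P / (D ^ 3 * Q ^ 4) ≤ K / (L * Q ^ 4) * ((m + 1) * d - D) := by
    rw [div_le_iff₀ (by positivity), div_mul_eq_mul_div, div_mul_eq_mul_div,
      le_div_iff₀ (by positivity)]
    have := pow_pos hQ 4
    nlinarith
  have hamgm : ((m + 1) * d - D) ^ m * D ≤ (m * d) ^ m * d := by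
    obtain ⟨u, hu0, rfl⟩ : ∃ u, 0 ≤ u ∧ D = u * d := ⟨D / d, by positivity, by field_simp⟩
    have hu1 : u ≤ m + 1 := le_of_mul_le_mul_right (by linarith) hd
    have h3 : (1 - (u - 1) / m) ^ m * u ≤ 1 := by
      calc (1 - (u - 1) / m) ^ m * u
          ≤ Real.exp (-((u - 1) / m)) ^ m * Real.exp (u - 1) := by
            refine mul_le_mul (pow_le_pow_left₀ ?_ ?_ _) ?_ hu0 (by positivity)
            · rw [sub_nonneg, div_le_one hm']; linarith
            · linarith [Real.add_one_le_exp (-((u - 1) / m))]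
            · linarith [Real.add_one_le_exp (u - 1)]
        _ = 1 := by
            rw [← Real.exp_nat_mul, ← Real.exp_add,
              show (m : ℝ) * -((u - 1) / m) + (u - 1) = 0 by field_simp; ring, Real.exp_zero]
    rw [show (m + 1) * d - u * d = (1 - (u - 1) / m) * (m * d) by field_simp; ring, mul_pow]
    have hpos : 0 ≤ ((m : ℝ) * d) ^ m * d := by positivity
    nlinarith
  calc (P / (D ^ 3 * Q ^ 4)) ^ m * (D / Q ^ 2)
      ≤ (K / (L * Q ^ 4) * ((m + 1) * d - D)) ^ m * (D / Q ^ 2) :=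
        mul_le_mul_of_nonneg_right (pow_le_pow_left₀ (by positivity) h1 _) (by positivity)
    _ = (K / (L * Q ^ 4)) ^ m / Q ^ 2 * (((m + 1) * d - D) ^ m * D) := by
        rw [mul_pow]; ring
    _ ≤ (K / (L * Q ^ 4)) ^ m / Q ^ 2 * ((m * d) ^ m * d) := by gcongr
    _ = _ := by rw [mul_assoc K, mul_pow K, div_pow]; ring

theorem phi_segment {t : ℝ} (h0 : 0 ≤ t) (h1 : t ≤ 1) :
    phi ((-t : ℝ) + (((19 + 15 * t) / 17 : ℝ) : ℂ) * Complex.I) ≤ Real.exp (-7046.2455) := by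
  refine exp_of_sq_le ?_
  obtain ⟨hA, hB, hD⟩ := seg_values t
  rw [phi_sq, hA, hB, hD]
  have hDpos : 0 < evalL segD t := by
    simp only [segD, segX, segY, evalL_addL, evalL_smulL, evalL_mulL, evalL]
    push_cast
    refine add_pos_of_pos_of_nonneg (mul_self_pos.2 (by nlinarith)) (mul_self_nonneg _)
  have hP := segP_nonneg h0 h1
  simp only [segP, evalL_addL, evalL_smulL, evalL_mulL, evalL] at hP
  push_cast at hP
  generalize evalL segA t = A at hP ⊢
  generalize evalL segB t = B at hP ⊢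
  generalize evalL segD t = D at hP hDpos ⊢
  have key := seg_aux (P := B ^ 2 * A ^ 2) (Q := 289) (D := D) (K := 49938349)
    (L := 1000000000000) (d := 60610717) (m := 2000) (by norm_num) hDpos (by norm_num)
    (by norm_num) (by norm_num) (by norm_num) (by positivity) (by push_cast; linarith)
  have hc := pow_le_exp_cert (m := 100) (k := 2033117) (c := 2 * -7046.2455)
    (by norm_num) int_cert
    (Nat.mul_pos (Nat.pow_pos (by norm_num)) (Nat.pow_pos (by norm_num)))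
    (by have := Real.log_two_gt_d9; norm_num; linarith)
  simp only [Nat.cast_mul, Nat.cast_pow, Nat.cast_ofNat] at hc key
  rw [show (10 : ℝ) ^ 12 = 1000000000000 by norm_num] at hc
  refine le_trans (le_of_eq ?_) (key.trans hc)
  revert key
  generalize 2000 = m
  intro _
  rw [show (B / 289 ^ 4) ^ 2 * (A / 289) ^ 2 / (D / 289 ^ 2) ^ 3 = B ^ 2 * A ^ 2 / (D ^ 3 * 289 ^ 4) by
    field_simp]

theorem norm_sub_le_of_segment {n : ℕ} {F : ℂ → ℂ} {p q : ℂ}
    (hF : ∀ z ∈ ball (0 : ℂ) 5, HasDerivAt F (R n z) z) (hp : p ∈ ball (0 : ℂ) 5)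
    (hq : q ∈ ball (0 : ℂ) 5) (hre : ∀ θ : ℝ, 0 ≤ θ → θ ≤ 1 →
      (p + θ • (q - p)).re ^ 2 + 1 ≤ 25 ∧ phi (p + θ • (q - p)) ≤ Real.exp (-7046.2455)) :
    ‖F q - F p‖ ≤ Real.exp (-7046.2455 * n) * 10 := by
  have hsub : segment ℝ p q ⊆ ball (0 : ℂ) 5 := (convex_ball _ _).segment_subset hp hq
  refine (Convex.norm_image_sub_le_of_norm_hasDerivWithin_le (s := segment ℝ p q)
    (C := Real.exp (-7046.2455 * n))
    (fun z hz => (hF z (hsub hz)).hasDerivWithinAt) (fun z hz => ?_) (convex_segment p q)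
    (left_mem_segment ℝ p q) (right_mem_segment ℝ p q)).trans ?_
  · rw [segment_eq_image'] at hz
    obtain ⟨θ, ⟨h0, h1⟩, rfl⟩ := hz
    obtain ⟨h2, h3⟩ := hre θ h0 h1
    exact norm_R_le (one_le_norm_sq_sub h2) h3
  · refine mul_le_mul_of_nonneg_left ?_ (Real.exp_pos _).le
    rw [mem_ball_zero_iff] at hp hq
    linarith [norm_sub_le q p]

theorem phi_conj (z : ℂ) : phi (starRingEnd ℂ z) = phi z := by
  have e1 : starRingEnd ℂ z ^ 4 + 6 * starRingEnd ℂ z ^ 2 + 25 =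
      starRingEnd ℂ (z ^ 4 + 6 * z ^ 2 + 25) := by simp [map_ofNat]
  have e2 : starRingEnd ℂ z ^ 2 - 25 = starRingEnd ℂ (z ^ 2 - 25) := by simp [map_ofNat]
  simp only [phi, e1, e2, Complex.norm_conj]

/-- The bound for the integral. -/
theorem integralBound : IntegralBoundStmt := by
  have h30 : ∀ᶠ n : ℕ in atTop, (30 : ℝ) ≤ Real.exp (0.0005 * n) := by
    have : Tendsto (fun n : ℕ => Real.exp (0.0005 * n)) atTop atTop :=
      Real.tendsto_exp_atTop.comp (tendsto_natCast_atTop_atTop.const_mul_atTop (by norm_num))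
    exact this.eventually_ge_atTop 30
  filter_upwards [h30] with n hn
  obtain ⟨F, hF⟩ := (differentiableOn_R n).isExactOn_ball
  have hmem : ∀ x y : ℝ, x ^ 2 + y ^ 2 < 25 → (x : ℂ) + y * Complex.I ∈ ball (0 : ℂ) 5 := by
    intro x y h
    rw [mem_ball_zero_iff, Complex.norm_add_mul_I]
    exact (Real.sqrt_lt' (by norm_num)).2 (by norm_num; exact h)
  set P1 : ℂ := ((-1 : ℝ) : ℂ) + ((-2 : ℝ) : ℂ) * Complex.I with hP1
  set P2 : ℂ := ((0 : ℝ) : ℂ) + ((-(19 / 17) : ℝ) : ℂ) * Complex.I with hP2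
  set P3 : ℂ := ((0 : ℝ) : ℂ) + ((19 / 17 : ℝ) : ℂ) * Complex.I with hP3
  set P4 : ℂ := ((-1 : ℝ) : ℂ) + ((2 : ℝ) : ℂ) * Complex.I with hP4
  have m1 := hmem (-1) (-2) (by norm_num)
  have m2 := hmem 0 (-(19 / 17)) (by norm_num)
  have m3 := hmem 0 (19 / 17) (by norm_num)
  have m4 := hmem (-1) 2 (by norm_num)
  have b1 : ‖F P1 - F P2‖ ≤ Real.exp (-7046.2455 * n) * 10 := by
    refine norm_sub_le_of_segment hF m2 m1 fun θ h0 h1 => ?_
    have e : P2 + θ • (P1 - P2) =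
        starRingEnd ℂ ((-θ : ℝ) + (((19 + 15 * θ) / 17 : ℝ) : ℂ) * Complex.I) := by
      apply Complex.ext <;>
        simp only [hP1, hP2, Complex.add_re, Complex.add_im, Complex.smul_re, Complex.smul_im,
          Complex.sub_re, Complex.sub_im, Complex.conj_re, Complex.conj_im, Complex.mul_re,
          Complex.mul_im, Complex.ofReal_re, Complex.ofReal_im, Complex.I_re, Complex.I_im,
          smul_eq_mul] <;> ring
    refine ⟨?_, by rw [e, phi_conj]; exact phi_segment h0 h1⟩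
    rw [e, Complex.conj_re]; simp; nlinarith
  have b2 : ‖F P3 - F P2‖ ≤ Real.exp (-7046.2455 * n) * 10 := by
    refine norm_sub_le_of_segment hF m2 m3 fun θ h0 h1 => ?_
    have e : P2 + θ • (P3 - P2) = ((19 / 17 * (2 * θ - 1) : ℝ) : ℂ) * Complex.I := by
      simp only [hP2, hP3, Complex.real_smul]; push_cast; ring
    refine ⟨by rw [e]; simp, ?_⟩
    rw [e]
    exact phi_axis (abs_le.2 ⟨by linarith, by linarith⟩)
  have b3 : ‖F P4 - F P3‖ ≤ Real.exp (-7046.2455 * n) * 10 := by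
    refine norm_sub_le_of_segment hF m3 m4 fun θ h0 h1 => ?_
    have e : P3 + θ • (P4 - P3) = (-θ : ℝ) + (((19 + 15 * θ) / 17 : ℝ) : ℂ) * Complex.I := by
      simp only [hP3, hP4, Complex.real_smul]; push_cast; ring
    refine ⟨?_, by rw [e]; exact phi_segment h0 h1⟩
    rw [e]; simp; nlinarith
  have hI : I n = (F P4).im - (F P1).im := by
    have hd : ∀ y ∈ Set.uIcc (-2 : ℝ) 2,
        HasDerivAt (fun y : ℝ => (F (((-1 : ℝ) : ℂ) + (y : ℂ) * Complex.I)).im)
          (R n (-1 + (y : ℂ) * Complex.I)).re y := by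
      intro y hy
      rw [Set.uIcc_of_le (by norm_num)] at hy
      have hm := hmem (-1) y (by nlinarith [hy.1, hy.2])
      have h := HasDerivAt.comp_ofReal (e := fun w : ℂ => F (((-1 : ℝ) : ℂ) + w * Complex.I))
        ((hF _ hm).comp (y : ℂ) (((hasDerivAt_id (y : ℂ)).mul_const Complex.I).const_add _))
      have h' := Complex.imCLM.hasFDerivAt.comp_hasDerivAt y h
      simp only [Function.comp_def, Complex.imCLM_apply, one_mul] at h'
      refine h'.congr_deriv ?_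
      simp [Complex.mul_im]
    rw [I, intervalIntegral.integral_eq_sub_of_hasDerivAt hd]
    refine (Continuous.continuousOn ?_ |>.intervalIntegrable)
    have hne : ∀ y : ℝ, ((-1 + (y : ℂ) * Complex.I) ^ 2 - 25) ^ eM n ≠ 0 := by
      intro y
      refine pow_ne_zero _ fun h => ?_
      have := one_le_norm_sq_sub (z := -1 + (y : ℂ) * Complex.I) (by simp; norm_num)
      rw [h, norm_zero] at this
      linarith
    unfold R
    exact Complex.continuous_re.comp (Continuous.div (by fun_prop) (by fun_prop) hne)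
  rw [hI, ← Complex.sub_im]
  refine (Complex.abs_im_le_norm _).trans ?_
  have e : F P4 - F P1 = (F P4 - F P3) + (F P3 - F P2) - (F P1 - F P2) := by ring
  rw [e]
  refine (norm_sub_le _ _).trans (le_trans (add_le_add_left (norm_add_le _ _) _) ?_)
  calc ‖F P4 - F P3‖ + ‖F P3 - F P2‖ + ‖F P1 - F P2‖
      ≤ 30 * Real.exp (-7046.2455 * (n : ℝ)) := by linarith
    _ ≤ Real.exp (0.0005 * (n : ℝ)) * Real.exp (-7046.2455 * (n : ℝ)) := by gcongr
    _ = _ := by rw [← Real.exp_add]; ring_nf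

end

end Vale.Agent.P021
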